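import Crest.Agent.N067.E.MV
import Crest.Agent.N067.E.Col
import Crest.Agent.N067.E.Band2_Mg
import Crest.Agent.N067.K.Lay
import Crest.Agent.N067.A.Modica
import Crest.Agent.N067.X7.Basic
import Crest.Agent.N067.K.Defs
import Crest.Agent.N067.A.DVar

-- ▼ part N067/E/Trans
section

/-! # E/Trans (leaf E-Trans): case (ii), a flat ball up the tube is a flat ball at `0`

`u` increases along `e_last`, so `⟪e,x⟫ < c - εr → u x ≤ u (x + h e_last) < 0`.  If `‖x‖ < r/2`,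
`⟪e,x⟫ > c + 2εr` and `u x ≤ 0`: with `ρ = εr/4`, `a = cut x ρ`, `clr` gives `c ρ^(k+1) ≤ ∫ a Gp(u)`;
`Φ(t) = ∫ a Gp(u(· + t e_last))` has `Φ' ≥ -∫_{ball 0 ((K+1) r)} h u_last ≥ -δ r^k` on `[0,h]`
(`Aac.hasDerivAt_shift`), and `Φ(h) ≤ C e^{-εr/2} |ball (2ρ)|` (`decay` in balls of radius `εr/2`, `Gp_le_sq`).
Contradiction for `δ` small, `r` large.  `x = 0` gives `-2εr ≤ c ≤ εr`. -/

set_option autoImplicit false

open MeasureTheory Laplacian InnerProductSpace Topology Filter Set Metric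
open scoped RealInnerProductSpace ContDiff Gradient

namespace Crest.Agent.N067.E

open Crest.Agent.R077

noncomputable section

variable {n k : ℕ}

namespace Trans

theorem mono_up {u : EE (k + 1) → ℝ} (hu : Sol u) (hm : MonoLast u) (x : EE (k + 1)) {h : ℝ}
    (h0 : 0 ≤ h) : u x ≤ u (x + h • ev (Fin.last k)) := by
  have hd : ∀ t : ℝ, HasDerivAt (fun t : ℝ => u (x + t • ev (Fin.last k)))
      (fderiv ℝ u (x + t • ev (Fin.last k)) (ev (Fin.last k))) t := fun t => by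
    have h1 : HasDerivAt (fun t : ℝ => x + t • ev (Fin.last k)) (ev (Fin.last k)) t := by
      simpa using ((hasDerivAt_id t).smul_const (ev (Fin.last k))).const_add x
    exact ((hu.sm.differentiable (by simp)) _).hasFDerivAt.comp_hasDerivAt t h1
  have := monotone_of_deriv_nonneg (fun t => (hd t).differentiableAt)
    (fun t => by rw [(hd t).deriv]; exact (hm _).le) h0
  simpa using this

/-- transport of `∫ a Gp(u)` along the last direction -/
theorem slide {u a : EE (k + 1) → ℝ} (hu : Sol u) (hm : MonoLast u) (ha : Continuous a)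
    (hc : HasCompactSupport a) (ha1 : ∀ z, 0 ≤ a z ∧ a z ≤ 1) {R h D : ℝ} (h0 : 0 ≤ h)
    (hR : ∀ z, a z ≠ 0 → ‖z‖ + h < R)
    (hD : ∫ x in ball (0 : EE (k + 1)) R, hh (u x) * pdv (Fin.last k) u x ≤ D) :
    ∫ z, a z * Gp (u z) ≤ (∫ z, a z * Gp (u (z + h • ev (Fin.last k)))) + D * h := by
  have hg : ContDiff ℝ 1 fun z => Gp (u z) := contDiff_Gp.comp (hu.sm.of_le (by simp))
  have hd := fun t => Aac.hasDerivAt_shift ha hc hg (Fin.last k) t
  have hF : Continuous fun x => hh (u x) * pdv (Fin.last k) u x :=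
    ((contDiff_hh (m := 0)).continuous.comp hu.sm.continuous).mul
      (Aac.cont_pdv (hu.sm.of_le (by simp)) _)
  have key := (convex_Icc 0 h).mul_sub_le_image_sub_of_le_deriv
    (f := fun t : ℝ => ∫ z, a z * Gp (u (z + t • ev (Fin.last k)))) (C := -D)
    (fun t _ => (hd t).continuousAt.continuousWithinAt)
    (fun t _ => (hd t).differentiableAt.differentiableWithinAt) (fun t ht => by
      replace ht := interior_subset ht
      rw [(hd t).deriv]
      have e : ∀ z, pdv (Fin.last k) (fun z => Gp (u z)) z = -(hh (u z) * pdv (Fin.last k) u z) :=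
        fun z => by
          rw [pdv_comp (hasDerivAt_Gp _) (hu.sm.differentiable (by simp) z)]; ring
      simp only [e, mul_neg, integral_neg, neg_le_neg_iff]
      rw [← integral_sub_right_eq_self _ (t • ev (Fin.last k))]
      simp only [sub_add_cancel]
      refine (Aac.le_setInt hF (fun z => mul_nonneg (hh_nonneg (hu.lt z).le) (hm z).le)
        (fun z => ha1 _) fun z hz => ?_).trans hD
      by_contra hne
      apply hz
      have h1 := hR _ hne
      have h2 := norm_add_le (z - t • ev (Fin.last k)) (t • ev (Fin.last k))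
      have h3 : ‖t • (ev (Fin.last k) : EE (k + 1))‖ = t := by
        rw [norm_smul, Real.norm_of_nonneg ht.1]; simp [ev]
      rw [sub_add_cancel, h3] at h2
      rw [mem_ball_zero_iff]; linarith [ht.2])
    0 ⟨le_rfl, h0⟩ h ⟨h0, le_rfl⟩ h0
  simp only [zero_smul, add_zero, sub_zero] at key
  linarith

theorem small {f : EE (k + 1) → ℝ} (x : EE (k + 1)) {ρ η : ℝ} (hρ : 0 < ρ) (hf : Continuous f)
    (h0 : ∀ z, 0 ≤ f z) (hη : ∀ z ∈ ball x (2 * ρ), f z ≤ η) :
    ∫ z, cut x ρ z * f z ≤ η * ((2 * ρ) ^ (k + 1) * volume.real (ball (0 : EE (k + 1)) 1)) := by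
  refine (Aac.le_setInt hf h0 (fun z => ⟨cut_nonneg _ _ _, cut_le_one _ _ _⟩) (x := x) (R := 2 * ρ)
    fun z hz => cut_eq_zero hρ (by simpa [dist_eq_norm] using hz)).trans ?_
  have h1 := norm_setIntegral_le_of_norm_le_const (μ := volume) (s := ball x (2 * ρ)) (f := f)
    (C := η) measure_ball_lt_top fun z hz => by rw [Real.norm_of_nonneg (h0 z)]; exact hη z hz
  rw [← Measure.addHaar_real_closedBall_eq_addHaar_real_ball,
    Measure.addHaar_real_closedBall _ _ (by positivity), finrank_euclideanSpace_fin] at h1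
  exact (le_abs_self _).trans h1

end Trans

theorem trans (k : ℕ) (hk : 1 ≤ k) (ε K : ℝ) (hε : 0 < ε) (hε1 : ε ≤ 1 / 2) (hK : 0 ≤ K) :
    ∃ δ r1 : ℝ, 0 < δ ∧ ∀ (u : EE (k + 1) → ℝ) (r h c : ℝ) (e : EE (k + 1)), Sol u → SLp u →
      MonoLast u → u 0 = 0 → r1 ≤ r → 0 ≤ h → h ≤ K * r → ‖e‖ = 1 →
      FlatAt u (h • ev (Fin.last k)) r e c (ε * r) →
      (∫ x in ball (0 : EE (k + 1)) ((K + 1) * r), hh (u x) * pdv (Fin.last k) u x ≤ δ * r ^ k) →
      Flat u (r / 2) e (3 * ε * r) := by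
  obtain ⟨c0, hc0, H⟩ := clr k hk
  set V := volume.real (ball (0 : EE (k + 1)) 1) with hV
  have V0 : 0 ≤ V := measureReal_nonneg
  have hη : 0 < c0 / (4 * (2 ^ (k + 1) * V + 1)) := by positivity
  obtain ⟨R0, hR0, HB⟩ := ballS (k + 1) _ (Real.sqrt_pos.2 hη)
  refine ⟨c0 * (ε / 4) ^ (k + 1) / (4 * (K + 1)), (32 + 2 * R0) / ε, by positivity,
    fun u r h c e hu hs hm h0 hr hh0 hhK he hF hD => ?_⟩
  rw [div_le_iff₀ hε] at hr
  have hr0 : 0 < r := by nlinarith
  have hA : ∀ x, ‖x‖ < r → ⟪e, x⟫ < c - ε * r → u x < 0 := fun x h1 h2 =>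
    (Trans.mono_up hu hm x hh0).trans_lt (hF.2 x h1 h2)
  have hB : ∀ x, ‖x‖ < r / 2 → c + 2 * (ε * r) < ⟪e, x⟫ → 0 < u x := by
    intro x h1 h2
    by_contra hx
    have hρ : 8 ≤ ε * r / 4 := by linarith
    have hρ0 : 0 < ε * r / 4 := by linarith
    have hεr : ε * r ≤ r / 2 := by nlinarith
    have cG : Continuous fun z => Gp (u z) := (contDiff_Gp (m := 0)).continuous.comp hu.sm.continuous
    have a1 := (H u hu hs x _ hρ (not_lt.1 hx)).trans (Aac.setInt_le cG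
      (fun z => Gp_nonneg (hu.lt z).le) (contDiff_cut x (ε * r / 4) (m := 0)).continuous
      (cs_cut x hρ0) (cut_nonneg _ _) fun z hz => cut_eq_one hρ0 (mem_ball_iff_norm.1 hz).le)
    have a2 := Trans.slide hu hm (contDiff_cut x (ε * r / 4) (m := 0)).continuous (cs_cut x hρ0)
      (fun z => ⟨cut_nonneg _ _ _, cut_le_one _ _ _⟩) hh0 (fun z hz => by
        have b1 : ‖z - x‖ < 2 * (ε * r / 4) := lt_of_not_ge fun h' => hz (cut_eq_zero hρ0 h')
        have b2 := norm_add_le (z - x) x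
        rw [sub_add_cancel] at b2
        linarith) hD
    have a3 := Trans.small (f := fun z => Gp (u (z + h • ev (Fin.last k)))) x hρ0
      (cG.comp (continuous_id.add continuous_const)) (fun z => Gp_nonneg (hu.lt _).le)
      (η := c0 / (4 * (2 ^ (k + 1) * V + 1))) fun z hz => by
        have b1 := HB u hu.isSol (z + h • ev (Fin.last k)) fun y hy => by
          have b2 : ‖y - h • ev (Fin.last k) - x‖ < ε * r := by
            have b3 := norm_add_le (y - (z + h • ev (Fin.last k))) (z - x)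
            have e1 : y - (z + h • ev (Fin.last k)) + (z - x) = y - h • ev (Fin.last k) - x := by
              abel
            rw [e1] at b3
            linarith [mem_ball_iff_norm.1 hy, mem_ball_iff_norm.1 hz]
          have b4 := norm_add_le (y - h • ev (Fin.last k) - x) x
          rw [sub_add_cancel] at b4
          have b5 := abs_real_inner_le_norm e (y - h • ev (Fin.last k) - x)
          rw [he, one_mul, inner_sub_right] at b5
          have := hF.1 (y - h • ev (Fin.last k)) (by linarith) (by linarith [(abs_le.1 b5).1])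
          rwa [sub_add_cancel] at this
        refine (Gp_le_sq (hu.lt _).le).trans ?_
        rw [← Real.sq_sqrt hη.le]
        exact pow_le_pow_left₀ (by linarith [(abs_lt.1 (hu.lt (z + h • ev (Fin.last k)))).2])
          (by linarith) 2
    have p0 : 0 < c0 * (ε * r / 4) ^ (k + 1) := by positivity
    have a4 : c0 / (4 * (2 ^ (k + 1) * V + 1)) * ((2 * (ε * r / 4)) ^ (k + 1) * V) ≤
        c0 * (ε * r / 4) ^ (k + 1) / 4 := by
      rw [mul_pow, div_mul_eq_mul_div, div_le_div_iff₀ (by positivity) (by norm_num)]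
      nlinarith
    have a5 : c0 * (ε / 4) ^ (k + 1) / (4 * (K + 1)) * r ^ k * h ≤
        c0 * (ε * r / 4) ^ (k + 1) / 4 := by
      calc _ ≤ c0 * (ε / 4) ^ (k + 1) / (4 * (K + 1)) * r ^ k * ((K + 1) * r) := by
            gcongr; linarith
        _ = _ := by rw [show ε * r / 4 = ε / 4 * r by ring, mul_pow]; field_simp; ring
    linarith
  have c1 : c ≤ ε * r := by
    by_contra h'
    exact (hA 0 (by simpa using hr0) (by simp; linarith)).ne h0
  have c2 : -(2 * (ε * r)) ≤ c := by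
    by_contra h'
    exact (hB 0 (by simpa using hr0) (by simp; linarith)).ne' h0
  exact ⟨fun x h1 h2 => hB x h1 (by linarith), fun x h1 h2 => hA x (by linarith) (by linarith)⟩

end

end Crest.Agent.N067.E
end

-- ▼ part N067/E/SL
section

/-! # E/SL (leaf E-SL): the sliding inequality for monotone solutions

`Φ(s) = ∫ χ en u(· + sτ e_j) - ∫ ‖∇χ‖ Gp(u(· + sτ e_j))` is nondecreasing (`Aac.hasDerivAt_shift`):
`d/ds ∫ χ en(u_s) = τ ∫ χ ∂_j en(u_s) = -τ ∫ ∂_j u_s ⟪∇u_s, ∇χ⟫` (`ibp` + `fv` for the shifted solution)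
`≥ -∫ ‖∇χ‖ h(u_s) τ ∂_j u_s = d/ds ∫ ‖∇χ‖ Gp(u_s)` (`norm_grad_le`).  As `s → ∞`:
`Φ(s) ≤ ∫ χ h(u_s)² - ∫ ‖∇χ‖ Gp(u_s) → ∫ χ h(U)² - ∫ ‖∇χ‖ Gp(U)` (`en_le`, dominated convergence), which is
`0` for `U = 1` and `≤ 0` for planar `U` (`h(U)² = -∂_a Gp(U)`, integrate by parts in the direction `a`).
`mn_of_mono`: `slp` with `τ = 1`, `U = up ∘ init` (`Aac.snoc_eq`); `slm` for `-u` with `τ = -1`,
`U = -um ∘ init` (planar in the direction `snoc (-a) 0`, tanh is odd). -/

set_option autoImplicit false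

open MeasureTheory Laplacian InnerProductSpace Topology Filter Set Metric
open scoped RealInnerProductSpace ContDiff Gradient

namespace Crest.Agent.N067.E

open Crest.Agent.R077

noncomputable section

variable {n k : ℕ}

namespace SL

theorem cont_ng {χ : EE n → ℝ} (h : ContDiff ℝ 1 χ) : Continuous fun x => ‖∇ χ x‖ :=
  ((toDual ℝ (EE n)).symm.continuous.comp (h.continuous_fderiv one_ne_zero)).norm

theorem cs_ng {χ : EE n → ℝ} (hc : HasCompactSupport χ) : HasCompactSupport fun x => ‖∇ χ x‖ := by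
  refine hc.mono' fun z hz => ?_
  by_contra h
  refine hz ?_
  simp [gradient, fderiv_of_notMem_tsupport ℝ h]

theorem cs_gin (f : EE n → ℝ) {χ : EE n → ℝ} (hc : HasCompactSupport χ) :
    HasCompactSupport (gin f χ) := by
  refine hc.mono' fun z hz => ?_
  by_contra h
  refine hz ?_
  simp [gin_eq, gradient, fderiv_of_notMem_tsupport ℝ h]

theorem cont_gin {f g : EE n → ℝ} (hf : ContDiff ℝ 1 f) (hg : ContDiff ℝ 1 g) :
    Continuous (gin f g) :=
  continuous_iff_continuousAt.2 fun _ =>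
    (contDiffAt_gin (m := 0) hf.contDiffAt hg.contDiffAt (by norm_num)).continuousAt

/-- the flux inequality -/
theorem flux {u χ : EE n → ℝ} (hu : Sol u) (j : Fin n) (τ : ℝ) (hm : ∀ x, 0 ≤ τ * pdv j u x)
    (hχ : ContDiff ℝ 1 χ) (hc : HasCompactSupport χ) :
    0 ≤ (∫ z, χ z * pdv j (en u) z) * τ -
      (∫ z, ‖∇ χ z‖ * pdv j (fun y => Gp (u y)) z) * τ := by
  have u2 := hu.isSol.c2
  have u1 : ContDiff ℝ 1 u := u2.of_le (by norm_num)
  have i1 : Integrable fun z => en u z * pdv j χ z :=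
    ((cont_en hu).mul (Aac.cont_pdv hχ j)).integrable_of_hasCompactSupport
      (hasCompactSupport_pdv hc j).mul_left
  have i2 : Integrable fun z => pdv j u z * gin u χ z :=
    ((Aac.cont_pdv u1 j).mul (cont_gin u1 hχ)).integrable_of_hasCompactSupport
      (cs_gin u hc).mul_left
  have i3 : Integrable fun z => ‖∇ χ z‖ * pdv j (fun y => Gp (u y)) z :=
    ((cont_ng hχ).mul (Aac.cont_pdv (contDiff_Gp.comp u1) j)).integrable_of_hasCompactSupport
      (cs_ng hc).mul_right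
  have e1 := fv hu.isSol hχ hc j
  rw [integral_sub i1 i2, sub_eq_zero] at e1
  have e2 : ∫ z, χ z * pdv j (en u) z = -∫ z, pdv j u z * gin u χ z := by
    rw [← e1, ← ibp_right (Aac.contDiff_en u2) hχ hc j]
    simp only [mul_comm]
  rw [e2, ← integral_neg, ← sub_mul, ← integral_sub i2.fun_neg i3, ← integral_mul_const]
  refine integral_nonneg fun z => ?_
  have h1 : gin u χ z ≤ hh (u z) * ‖∇ χ z‖ := (le_abs_self _).trans ((abs_gin_le u χ z).trans
    (mul_le_mul_of_nonneg_right (norm_grad_le hu z) (norm_nonneg _)))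
  have h2 := mul_nonneg (hm z) (sub_nonneg.2 h1)
  simp only [Pi.zero_apply]
  rw [pdv_comp (hasDerivAt_Gp _) (u1.differentiable one_ne_zero z)]
  linarith

theorem lim {u U a : EE n → ℝ} {G : ℝ → ℝ} (hu : Sol u) {e : ℝ → EE n}
    (hU : ∀ x, Tendsto (fun s : ℝ => u (x + e s)) atTop (𝓝 (U x))) (ha : Continuous a)
    (hc : HasCompactSupport a) (hG : Continuous G) (hb : ∀ t, |t| ≤ 1 → |G t| ≤ 1) :
    Tendsto (fun s => ∫ x, a x * G (u (x + e s))) atTop (𝓝 (∫ x, a x * G (U x))) := by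
  refine tendsto_integral_filter_of_dominated_convergence (fun x => |a x|)
    (Eventually.of_forall fun s => (ha.mul (hG.comp (hu.sm.continuous.comp
      (continuous_id.add continuous_const)))).aestronglyMeasurable)
    (Eventually.of_forall fun s => ae_of_all _ fun x => ?_)
    (ha.integrable_of_hasCompactSupport hc).abs
    (ae_of_all _ fun x => ((hG.tendsto _).comp (hU x)).const_mul _)
  rw [norm_mul]
  exact mul_le_of_le_one_right (abs_nonneg _) (hb _ (hu.lt _).le)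

theorem planar_le {U χ : EE n → ℝ} (hU : Planar U) (hχ : ContDiff ℝ 1 χ)
    (hc : HasCompactSupport χ) : ∫ x, χ x * hh (U x) ^ 2 ≤ ∫ x, ‖∇ χ x‖ * Gp (U x) := by
  obtain ⟨a, ha, b, hw⟩ := hU
  obtain rfl : U = fun x => Real.tanh ((⟪a, x⟫ - b) / Real.sqrt 2) := funext hw
  set g : EE n → ℝ := fun x => (⟪a, x⟫ - b) / Real.sqrt 2 with hg
  have hin : ContDiff ℝ 1 fun y : EE n => ⟪a, y⟫ := contDiff_const.inner ℝ contDiff_id
  have gc : ContDiff ℝ 1 g := (hin.sub contDiff_const).div_const _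
  have tc : ContDiff ℝ 1 Real.tanh := by
    have e : Real.tanh = fun t => Real.sinh t / Real.cosh t :=
      funext fun t => Real.tanh_eq_sinh_div_cosh t
    rw [e]
    exact Real.contDiff_sinh.div Real.contDiff_cosh fun t => (Real.cosh_pos t).ne'
  have w1 : ContDiff ℝ 1 fun x => Real.tanh (g x) := tc.comp gc
  have G1 : ContDiff ℝ 1 fun x => Gp (Real.tanh (g x)) := contDiff_Gp.comp w1
  have hp : ∀ i z, pdv i (fun x => Gp (Real.tanh (g x))) z =
      -(hh (Real.tanh (g z)) ^ 2 * a i) := fun i z => by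
    rw [pdv_comp (hasDerivAt_Gp _) (w1.differentiable one_ne_zero z),
      pdv_comp (Aac.hasDerivAt_tanh _) (gc.differentiable one_ne_zero z)]
    have : g = fun x => (Real.sqrt 2)⁻¹ * (⟪a, x⟫ - b) := by funext x; rw [hg]; ring
    have e : pdv i g z = (Real.sqrt 2)⁻¹ * a i := by
      rw [this, pdv_const_mul ((hin.sub contDiff_const).differentiable one_ne_zero z),
        pdv_sub_const, pdv_inner]
    rw [e, hh]
    ring
  have ha2 : ∑ i, a i ^ 2 = 1 := by
    have := EuclideanSpace.real_norm_sq_eq a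
    rw [ha] at this; linarith
  have i1 : ∀ i, Integrable fun z => -a i * (pdv i (fun x => Gp (Real.tanh (g x))) z * χ z) :=
    fun i => (((Aac.cont_pdv G1 i).mul hχ.continuous).integrable_of_hasCompactSupport
      hc.mul_left).const_mul _
  have i2 : ∀ i, Integrable fun z => a i * (Gp (Real.tanh (g z)) * pdv i χ z) :=
    fun i => ((G1.continuous.mul (Aac.cont_pdv hχ i)).integrable_of_hasCompactSupport
      (hasCompactSupport_pdv hc i).mul_left).const_mul _
  calc _ = ∫ z, ∑ i, -a i * (pdv i (fun x => Gp (Real.tanh (g x))) z * χ z) := by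
        refine integral_congr_ae (ae_of_all _ fun z => ?_)
        have : ∑ i, -a i * (pdv i (fun x => Gp (Real.tanh (g x))) z * χ z) =
            χ z * hh (Real.tanh (g z)) ^ 2 * ∑ i, a i ^ 2 := by
          rw [Finset.mul_sum]; exact Finset.sum_congr rfl fun i _ => by rw [hp]; ring
        rw [ha2, mul_one] at this
        exact this.symm
    _ = ∫ z, ∑ i, a i * (Gp (Real.tanh (g z)) * pdv i χ z) := by
        rw [integral_finsetSum _ fun i _ => i1 i, integral_finsetSum _ fun i _ => i2 i]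
        refine Finset.sum_congr rfl fun i _ => ?_
        rw [integral_const_mul, integral_const_mul, ibp_right G1 hχ hc i]
        ring
    _ ≤ _ := by
        refine integral_mono (integrable_finsetSum _ fun i _ => i2 i)
          (((cont_ng hχ).mul G1.continuous).integrable_of_hasCompactSupport (cs_ng hc).mul_right)
          fun z => ?_
        have h1 : ⟪∇ χ z, a⟫ ≤ ‖∇ χ z‖ := by simpa [ha] using real_inner_le_norm (∇ χ z) a
        have h2 := mul_le_mul_of_nonneg_right h1 (Gp_nonneg (Real.abs_tanh_lt_one (g z)).le)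
        refine le_trans (le_of_eq ?_) h2
        rw [inner_eq_sum, Finset.sum_mul]
        exact Finset.sum_congr rfl fun i _ => by rw [grad_apply]; ring

theorem planar_init {w : EE k → ℝ} (h : Planar w) : Planar fun z : EE (k + 1) => w (init z) := by
  obtain ⟨a, ha, b, hb⟩ := h
  refine ⟨snoc a 0, ?_, b, fun z => by
    beta_reduce; rw [hb, inner_snoc, zero_mul, add_zero]⟩
  rw [← ha, EuclideanSpace.norm_eq, EuclideanSpace.norm_eq]
  simp [Fin.sum_univ_castSucc, snoc]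

theorem planar_neg {w : EE n → ℝ} (h : Planar w) : Planar fun z => -w z := by
  obtain ⟨a, ha, b, hb⟩ := h
  refine ⟨-a, by rw [norm_neg, ha], -b, fun z => ?_⟩
  beta_reduce
  rw [hb, ← Real.tanh_neg, inner_neg_left]
  congr 1
  ring

end SL

open SL in
theorem sl_of_slide {u U : EE n → ℝ} (hu : Sol u) (j : Fin n) (τ : ℝ)
    (hm : ∀ x, 0 ≤ τ * pdv j u x)
    (hU : ∀ x, Tendsto (fun s : ℝ => u (x + (s * τ) • ev j)) atTop (𝓝 (U x)))
    (hc : (∀ x, U x = 1) ∨ Planar U) : SLp u := by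
  intro χ hχ hs h0
  have u2 := hu.isSol.c2
  have u1 : ContDiff ℝ 1 u := u2.of_le (by norm_num)
  have G1 : ContDiff ℝ 1 fun y => Gp (u y) := contDiff_Gp.comp u1
  have hd : ∀ s : ℝ, HasDerivAt (fun s : ℝ => (∫ z, χ z * en u (z + (s * τ) • ev j)) -
      ∫ z, ‖∇ χ z‖ * Gp (u (z + (s * τ) • ev j)))
      ((∫ z, χ z * pdv j (en u) (z + (s * τ) • ev j)) * τ -
        (∫ z, ‖∇ χ z‖ * pdv j (fun y => Gp (u y)) (z + (s * τ) • ev j)) * τ) s := fun s => by
    have a0 : HasDerivAt (fun s : ℝ => s * τ) τ s := hasDerivAt_mul_const τ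
    exact ((Aac.hasDerivAt_shift hχ.continuous hs (Aac.contDiff_en u2) j (s * τ)).comp s a0).sub
      ((Aac.hasDerivAt_shift (cont_ng hχ) (cs_ng hs) G1 j (s * τ)).comp s a0)
  have hmono := monotone_of_deriv_nonneg (fun s => (hd s).differentiableAt) fun s => by
    rw [(hd s).deriv]
    have := flux (Sol_shift hu ((s * τ) • ev j)) j τ (fun z => by rw [Aac.pdv_shift]; exact hm _)
      hχ hs
    rw [Aac.en_shift] at this
    simpa only [Aac.pdv_shift (en u), Aac.pdv_shift fun y => Gp (u y)] using this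
  have l1 := lim hu hU hχ.continuous hs (G := fun t => hh t ^ 2)
    ((contDiff_hh (m := 0)).continuous.pow 2) fun t ht => by
      rw [abs_of_nonneg (sq_nonneg _)]
      exact pow_le_one₀ (hh_nonneg ht) (hh_le_one t)
  have l2 := lim hu hU (cont_ng hχ) (cs_ng hs) (contDiff_Gp (m := 0)).continuous fun t ht => by
    rw [abs_of_nonneg (Gp_nonneg ht)]
    exact (Gp_le ht).trans s0_le_one
  have key : (∫ z, χ z * en u z) - ∫ z, ‖∇ χ z‖ * Gp (u z) ≤
      (∫ x, χ x * hh (U x) ^ 2) - ∫ x, ‖∇ χ x‖ * Gp (U x) := by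
    refine ge_of_tendsto (l1.sub l2) ((eventually_ge_atTop 0).mono fun s hs0 => ?_)
    have h1 := hmono hs0
    simp only [zero_mul, zero_smul, add_zero] at h1
    refine h1.trans (sub_le_sub_right ?_ _)
    have c0 : Continuous fun z : EE n => z + (s * τ) • ev j := continuous_id.add continuous_const
    exact integral_mono
      ((hχ.continuous.mul ((cont_en hu).comp c0)).integrable_of_hasCompactSupport hs.mul_right)
      ((hχ.continuous.mul (((contDiff_hh (m := 0)).continuous.comp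
        (hu.sm.continuous.comp c0)).pow 2)).integrable_of_hasCompactSupport hs.mul_right)
      fun z => mul_le_mul_of_nonneg_left (en_le hu _) (h0 z)
  rcases hc with hc | hc
  · simp only [hc, hh, Gp_eq 1] at key
    simpa using key
  · linarith [planar_le hc hχ hs]

open SL in
theorem mn_of_mono {u : EE (k + 1) → ℝ} {up um : EE k → ℝ} (hu : Sol u) (hm : MonoLast u)
    (hp : ∀ y, Tendsto (fun s => u (snoc y s)) atTop (𝓝 (up y)))
    (hq : ∀ y, Tendsto (fun s => u (snoc y s)) atBot (𝓝 (um y)))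
    (h1 : (∀ y, up y = 1) ∨ Planar up) (h2 : (∀ y, um y = -1) ∨ Planar um) : Mn u := by
  refine ⟨hu, sl_of_slide (U := fun z => up (init z)) hu (Fin.last k) 1
    (fun x => by rw [one_mul]; exact (hm x).le) (fun x => ?_)
    (h1.imp (fun h x => h _) planar_init),
    sl_of_slide (U := fun z => -um (init z)) (Sol_neg hu) (Fin.last k) (-1)
    (fun x => by rw [pdv_neg, neg_mul_neg, one_mul]; exact (hm x).le) (fun x => ?_)
    (h2.imp (fun h x => by rw [h, neg_neg]) fun h => planar_neg (planar_init h))⟩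
  · simp only [Aac.snoc_eq, mul_one]
    exact (hp _).comp (tendsto_atTop_add_const_left _ _ tendsto_id)
  · simp only [Aac.snoc_eq, mul_neg, mul_one]
    exact ((hq _).comp (tendsto_atBot_add_const_left _ _ tendsto_neg_atTop_atBot)).neg

end

end Crest.Agent.N067.E
end

-- ▼ part N067/E/Top
section

/-! # E/Top (leaf E-Top): S0089 from S0090, TUBE and (i)

`mono_planar`: `ε0` from `slab`; `Θ` from `exists_EN`; `ε = min (ε0/6) (1/2)`, `K, r1` from TUBE, `δ` from `trans`.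
If for arbitrarily large `r`, `∫_{ball 0 ((K+1) r)} h u_8 ≤ δ r^7`: `Flat u (r/2) e (3εr)`.  Otherwise
`δ' R^7 ≤ ∫_{ball 0 R} h u_8` for all large `R`, `δ' = δ/(K+1)^7`; `band` with `ε0/4, δ'` gives `K', a`; (i) with
`a/K'^5` gives `R = K' r`.  Then `slab`, `gib`.
`s89`: `IsSol.smooth`, `pm`, `S90` for `up, um` (`um < u < up`, `|u| < 1` exclude `up = -1`, `um = 1`),
`mn_of_mono`; `up` is positive and `um` negative somewhere, so `u` has a zero `x0` (IVT); shift by `x0`;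
the direction `a` has `a_8 > 0` because `∂_8 u = (1 - u²) a_8/√2 > 0`. -/

set_option autoImplicit false

open MeasureTheory Laplacian InnerProductSpace Topology Filter Set Metric
open scoped RealInnerProductSpace ContDiff Gradient

namespace Crest.Agent.N067.E

open Crest.Agent.R077

noncomputable section

variable {n k : ℕ}

theorem mono_planar (hT : TubeStmt) (hI : IStmt) {u : EE (7 + 1) → ℝ} (hu : Mn u)
    (hs : Stable u) (hm : MonoLast u) (h0 : u 0 = 0) : Planar u := by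
  obtain ⟨ε0, hε0, hslab⟩ := slab 7 (by norm_num)
  obtain ⟨Θ, -, hΘ⟩ := exists_EN 7
  have hG : Grow u Θ := fun x R hR => hΘ u hu.sol hu.slp x R (by linarith)
  have hε : 0 < min (ε0 / 6) (1 / 2) := by positivity
  obtain ⟨K, r1, hK, htube⟩ := hT u Θ hu.sol hs hm hG _ hε
  obtain ⟨δ, r2, hδ, htr⟩ := trans 7 (by norm_num) _ K hε (min_le_right _ _) hK
  suffices H : ∀ R0 : ℝ, ∃ (R : ℝ) (e : EE (7 + 1)), R0 ≤ R ∧ ‖e‖ = 1 ∧ Flat u R e (ε0 * R) by
    obtain ⟨e, K', he, hp, hq⟩ := hslab u hu.sol hu.slp h0 H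
    exact gib hu.sol he hp hq
  intro R0
  by_cases H : ∀ R1 : ℝ, ∃ r, R1 ≤ r ∧ ∫ x in ball (0 : EE (7 + 1)) ((K + 1) * r),
      hh (u x) * pdv (Fin.last 7) u x ≤ δ * r ^ 7
  · obtain ⟨r, hr, hi⟩ := H (max (max (2 * R0) 0) (max r1 r2))
    simp only [max_le_iff] at hr
    obtain ⟨h, c, e, h1, h2, he, hf⟩ := htube r hr.2.1
    refine ⟨r / 2, e, by linarith [hr.1.1], he,
      (htr u r h c e hu.sol hu.slp hm h0 hr.2.2 h1 h2 he hf hi).mono le_rfl ?_⟩
    nlinarith [mul_le_mul_of_nonneg_right (min_le_left (ε0 / 6) (1 / 2)) hr.1.2]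
  · push Not at H
    obtain ⟨R1, H⟩ := H
    have hK1 : 0 < K + 1 := by linarith
    obtain ⟨K', a, r3, hK', ha, hb⟩ := band 7 (by norm_num) (ε0 / 4) (δ / (K + 1) ^ 7)
      (by positivity) (by positivity)
    have hK0 : 0 < K' := by linarith
    obtain ⟨R, hR, hi⟩ := hI u Θ hu.sol hm hG (a / K' ^ 5)
      (K' * max (max (4 * R0) r3) ((K + 1) * R1)) (by positivity)
    obtain ⟨r, rfl⟩ : ∃ r, R = K' * r := ⟨R / K', by field_simp⟩
    have hr := le_of_mul_le_mul_left hR hK0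
    simp only [max_le_iff] at hr
    have h1 := (H (r / (K + 1)) (by rw [le_div_iff₀ hK1]; linarith [hr.2])).le
    rw [show (K + 1) * (r / (K + 1)) = r by field_simp,
      show δ * (r / (K + 1)) ^ 7 = δ / (K + 1) ^ 7 * r ^ 7 by field_simp] at h1
    obtain ⟨e, he, hf⟩ := hb u r hu hm h0 hr.1.2 h1 (by
      refine le_of_mul_le_mul_left ?_ (pow_pos hK0 2)
      rw [← mul_assoc, ← mul_pow]
      exact hi.trans_eq (by field_simp))
    exact ⟨r / 4, e, by linarith [hr.1.1], he, hf.mono le_rfl (le_of_eq (by ring))⟩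

theorem tanh_pos {s : ℝ} (hs : 0 < s) : 0 < Real.tanh s := by
  rw [Real.tanh_eq_sinh_div_cosh]
  exact div_pos (Real.sinh_pos_iff.2 hs) (Real.cosh_pos s)

theorem planar_signs {v : EE n → ℝ} (h : Planar v) : (∃ x, 0 < v x) ∧ ∃ x, v x < 0 := by
  obtain ⟨a, ha, b, h⟩ := h
  have h1 : ∀ t : ℝ, v ((b + t) • a) = Real.tanh (t / Real.sqrt 2) := fun t => by
    rw [h, inner_smul_right, real_inner_self_eq_norm_sq, ha]; congr 2; ring
  have h2 : 0 < Real.tanh (1 / Real.sqrt 2) := tanh_pos (by positivity)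
  refine ⟨⟨_, (h1 1).symm ▸ h2⟩, (b + -1) • a, ?_⟩
  rw [h1, neg_div, Real.tanh_neg]
  linarith

theorem s89 (h90 : S90) (hP : PMStmt) (hT : TubeStmt) (hI : IStmt)
    (u : EuclideanSpace ℝ (Fin 8) → ℝ) (hu : ContDiff ℝ 2 u)
    (hrange : ∀ x, u x ∈ Set.Ioo (-1 : ℝ) 1) (heq : ∀ x, (Δ u) x = u x ^ 3 - u x)
    (hmono : ∀ x, 0 < fderiv ℝ u x (EuclideanSpace.single (Fin.last 7) 1)) :
    ∃ e : EuclideanSpace ℝ (Fin 8), ‖e‖ = 1 ∧ 0 < e (Fin.last 7) ∧
      ∃ c : ℝ, ∀ x, u x = Real.tanh ((⟪e, x⟫ - c) / Real.sqrt 2) := by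
  have hi : IsSol u := ⟨hu, fun x => abs_le.2 ⟨(hrange x).1.le, (hrange x).2.le⟩, heq⟩
  have hs : Sol u := ⟨hi.smooth, fun x => abs_lt.2 (hrange x), heq⟩
  have hm : MonoLast (n := 7) u := hmono
  obtain ⟨up, um, p1, p2, q1, q2, pt, qt, hb⟩ := hP 7 u hi hm
  have h1 : (∀ y, up y = 1) ∨ Planar up := by
    rcases h90 up p1 p2 with h | h | h
    · exact Or.inl h
    · exact absurd ((hb 0 0).2.trans_eq (h 0)) (not_lt.2 (hrange _).1.le)
    · exact Or.inr h
  have h2 : (∀ y, um y = -1) ∨ Planar um := by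
    rcases h90 um q1 q2 with h | h | h
    · exact absurd ((h 0).symm.trans_lt (hb 0 0).1) (not_lt.2 (hrange _).2.le)
    · exact Or.inl h
    · exact Or.inr h
  have hM : Mn u := mn_of_mono hs hm pt qt h1 h2
  obtain ⟨x0, hx0⟩ : ∃ x0, u x0 = 0 := by
    obtain ⟨y, hy⟩ : ∃ y, 0 < up y := h1.elim (fun h => ⟨0, by rw [h]; exact one_pos⟩)
      fun h => (planar_signs h).1
    obtain ⟨z, hz⟩ : ∃ z, um z < 0 := h2.elim (fun h => ⟨0, by rw [h]; norm_num⟩)
      fun h => (planar_signs h).2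
    obtain ⟨s, hs'⟩ := ((pt y).eventually (lt_mem_nhds hy)).exists
    obtain ⟨t, ht⟩ := ((qt z).eventually (gt_mem_nhds hz)).exists
    exact intermediate_value_univ (snoc z t) (snoc y s) hu.continuous ⟨ht.le, hs'.le⟩
  have hM' := hM.shift x0
  have hm' : MonoLast (n := 7) fun x => u (x + x0) := fun x =>
    (hm (x + x0)).trans_eq (Aac.pdv_shift u x0 (Fin.last 7) x).symm
  obtain ⟨a, ha, b, h⟩ := mono_planar hT hI hM' (monoStab_of reg 7 _ hM'.sol.isSol hm') hm'
    (by simpa using hx0)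
  have hf : ∀ x, u x = Real.tanh ((⟪a, x⟫ - (⟪a, x0⟫ + b)) / Real.sqrt 2) := fun x => by
    have := h (x - x0)
    beta_reduce at this
    rw [sub_add_cancel, inner_sub_right] at this
    rw [this]; congr 2; ring
  refine ⟨a, ha, ?_, _, hf⟩
  have h3 : 0 < pdv (Fin.last 7) u 0 := hm 0
  have hd := (Aac.hasDerivAt_tanh _).comp ⟪a, (0 : EE 8)⟫
    (((hasDerivAt_id' ⟪a, (0 : EE 8)⟫).sub_const (⟪a, x0⟫ + b)).div_const (Real.sqrt 2))
  have h4 := pdv_comp (f := fun y : EE 8 => ⟪a, y⟫) (x := 0) hd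
    ((differentiableAt_const a).inner ℝ differentiableAt_id) (Fin.last 7)
  rw [pdv_inner, ← hf 0] at h4
  rw [funext hf] at h3
  have h5 : 0 < (1 - u 0 ^ 2) * (1 / Real.sqrt 2) := mul_pos (hs.psi_pos 0) (by positivity)
  exact (mul_pos_iff_of_pos_left h5).1 (h3.trans_eq h4)

end

end Crest.Agent.N067.E
end

-- ▼ part N067/K/Tub0
section

/-!
# Row 67, block K (helper53): mass of vertical tubes in `ℝ⁸`
-/

set_option autoImplicit false

open MeasureTheory Topology Filter Set Metric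
open scoped ENNReal

namespace Crest.Agent.N067

open Crest.Agent.R077

noncomputable section

/-- the seven horizontal coordinates -/
def I7 : Finset (Fin 8) := Finset.univ.erase (Fin.last 7)

theorem card_I7 : I7.card = 7 := by simp [I7]

theorem norm_sq_I7 (x c : EE 8) :
    ‖x - c‖ ^ 2 = ∑ i ∈ I7, (x i - c i) ^ 2 + (x (Fin.last 7) - c (Fin.last 7)) ^ 2 := by
  rw [EuclideanSpace.real_norm_sq_eq, I7,
    ← Finset.sum_erase_add _ _ (Finset.mem_univ (Fin.last 7))]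
  simp only [PiLp.sub_apply]

theorem sum_I7_shift (x c : EE 8) (h : ℝ) :
    ∑ i ∈ I7, (x i - (c + h • ev (Fin.last 7)) i) ^ 2 = ∑ i ∈ I7, (x i - c i) ^ 2 := by
  refine Finset.sum_congr rfl fun i hi => ?_
  have : i ≠ 7 := (Finset.mem_erase.1 hi).1
  simp [ev, this]

theorem last_shift (c : EE 8) (h : ℝ) :
    (c + h • ev (Fin.last 7)) (Fin.last 7) = c (Fin.last 7) + h := by simp [ev]

theorem sum_lt_of_rh_lt {n : ℕ} {I : Finset (Fin n)} {c x : EE n} {r0 s : ℝ} (h : rh I c r0 x < s) :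
    ∑ i ∈ I, (x i - c i) ^ 2 < s ^ 2 := by
  have h0 : 0 ≤ ∑ i ∈ I, (x i - c i) ^ 2 := Finset.sum_nonneg fun _ _ => sq_nonneg _
  have h1 := (Real.sqrt_lt' ((Real.sqrt_nonneg _).trans_lt h)).1 h
  nlinarith [sq_nonneg r0]

/-- a tube of radius `s` and length `L` is covered by `5 L / s` balls of radius `2 s` -/
theorem tube_ball {F : EE 8 → ℝ≥0∞} {M s L r0 : ℝ} (c : EE 8) (hs : 0 < s) (hL : s ≤ L) (hM : 0 ≤ M)
    (h : ∀ y, ∫⁻ x in ball y (2 * s), F x ≤ ENNReal.ofReal M) :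
    ∫⁻ x in ball c L ∩ {x | rh I7 c r0 x < s}, F x ≤ ENNReal.ofReal (5 * M / s * L) := by
  set N : ℕ := ⌈L / s⌉₊ with hN
  have hLs : 1 ≤ L / s := (one_le_div hs).2 hL
  have hN1 : L / s ≤ N := Nat.le_ceil _
  have hN2 : (N : ℝ) < L / s + 1 := Nat.ceil_lt_add_one (by positivity)
  have hsub : ball c L ∩ {x | rh I7 c r0 x < s} ⊆
      ⋃ j ∈ Finset.range (2 * N + 1), ball (c + (((j : ℝ) - N) * s) • ev (Fin.last 7)) (2 * s) := by
    rintro x ⟨h1, h2⟩
    have h3 := sum_lt_of_rh_lt h2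
    have h4 : ‖x - c‖ < L := by simpa [dist_eq_norm] using h1
    set a := x (Fin.last 7) - c (Fin.last 7) with ha
    have h5 : |a| < L := by
      have h6 := norm_sq_I7 x c
      have h7 : 0 ≤ ∑ i ∈ I7, (x i - c i) ^ 2 := Finset.sum_nonneg fun _ _ => sq_nonneg _
      refine abs_lt_of_sq_lt_sq ?_ (by linarith)
      nlinarith [norm_nonneg (x - c)]
    have h8 : |a / s| < N := by
      rw [abs_div, abs_of_pos hs]
      exact (div_lt_div_of_pos_right h5 hs).trans_le hN1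
    have h9 := abs_lt.1 h8
    have h10 : 0 ≤ a / s + N := by linarith
    refine mem_iUnion₂.2 ⟨⌊a / s + N⌋₊, Finset.mem_range.2 ?_, ?_⟩
    · rw [Nat.floor_lt h10]; push_cast; linarith
    · have h11 := Nat.floor_le h10
      have h12 := Nat.lt_floor_add_one (a / s + N)
      set j : ℝ := (⌊a / s + N⌋₊ : ℝ)
      have e : a = a / s * s := by field_simp
      have h13 : 0 ≤ a - (j - N) * s := by rw [e]; nlinarith
      have h14 : a - (j - N) * s ≤ s := by rw [e]; nlinarith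
      rw [mem_ball, dist_eq_norm]
      refine lt_of_pow_lt_pow_left₀ 2 (by positivity) ?_
      rw [norm_sq_I7, sum_I7_shift, last_shift]
      have : x (Fin.last 7) - (c (Fin.last 7) + (j - N) * s) = a - (j - N) * s := by rw [ha]; ring
      rw [this]
      nlinarith
  calc _ ≤ _ := lintegral_mono_set hsub
    _ ≤ ∑ j ∈ Finset.range (2 * N + 1),
          ∫⁻ x in ball (c + (((j : ℝ) - N) * s) • ev (Fin.last 7)) (2 * s), F x := by
        rw [← Finset.set_biUnion_coe, biUnion_eq_iUnion]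
        refine (lintegral_iUnion_le _ _).trans (le_of_eq ?_)
        exact Finset.tsum_subtype' (Finset.range (2 * N + 1)) fun j : ℕ =>
          ∫⁻ x in ball (c + (((j : ℝ) - N) * s) • ev (Fin.last 7)) (2 * s), F x
    _ ≤ ∑ _j ∈ Finset.range (2 * N + 1), ENNReal.ofReal M := Finset.sum_le_sum fun j _ => h _
    _ = ENNReal.ofReal (((2 * N + 1 : ℕ) : ℝ) * M) := by
        rw [Finset.sum_const, Finset.card_range, nsmul_eq_mul,
          ENNReal.ofReal_mul (Nat.cast_nonneg _), ENNReal.ofReal_natCast]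
    _ ≤ _ := by
        refine ENNReal.ofReal_le_ofReal ?_
        have : 5 * M / s * L = 5 * (L / s) * M := by ring
        rw [this]
        gcongr
        push_cast; linarith

/-- the constant of `tube_Om` -/
def cT7 (e : ℝ) : ℝ := cOm 1 * (5 * 2 ^ e) + cOm e

theorem cT7_pos {e : ℝ} (he : e < 20) : 0 < cT7 e := by
  have h1 := cOm_pos he
  have h2 := cOm_pos (e := 1) (by norm_num)
  unfold cT7; positivity

/-- mass of a tube against the majorant `Om` -/
theorem tube_Om {F : EE 8 → ℝ≥0∞} {A e a s R r0 : ℝ} (c : EE 8) (ha : 0 < a) (hs : a ≤ s)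
    (hR : a ≤ R) (hA : 0 ≤ A) (he1 : 1 ≤ e) (he : e < 20)
    (h : ∀ y r, a ≤ r → ∫⁻ x in ball y r, F x ≤ ENNReal.ofReal (A * r ^ e)) :
    ∫⁻ x in {x | rh I7 c r0 x < s}, F x * ENNReal.ofReal (Om c R x) ≤
      ENNReal.ofReal (cT7 e * A * R * s ^ (e - 1)) := by
  have hs0 : 0 < s := ha.trans_le hs
  have hR0 : 0 < R := ha.trans_le hR
  have h1 := cOm_pos he
  have h2 := cOm_pos (e := 1) (by norm_num)
  rcases le_total s R with h3 | h3
  · have h4 := lay_Om (μ := volume.restrict {x | rh I7 c r0 x < s}) (F := F) c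
      (A := 5 * (A * (2 * s) ^ e) / s) (e := 1) hR0 (by positivity) (by norm_num) fun L hL => by
        rw [Measure.restrict_restrict measurableSet_ball, Real.rpow_one]
        exact tube_ball c hs0 (h3.trans hL) (by positivity) fun y => h y _ (by linarith)
    refine h4.trans (ENNReal.ofReal_le_ofReal ?_)
    rw [Real.rpow_one, Real.mul_rpow zero_le_two hs0.le, Real.rpow_sub_one hs0.ne']
    unfold cT7
    have : cOm 1 * (5 * (A * (2 ^ e * s ^ e)) / s) * R = cOm 1 * (5 * 2 ^ e) * A * R * (s ^ e / s) := by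
      ring
    rw [this]
    gcongr
    linarith
  · have h4 := lay_Om (μ := volume) (F := F) c hR0 hA he fun L hL => h c L (hR.trans hL)
    refine (setLIntegral_le_lintegral _ _).trans (h4.trans (ENNReal.ofReal_le_ofReal ?_))
    have h5 : R ^ e = R * R ^ (e - 1) := by rw [Real.rpow_sub_one hR0.ne']; field_simp
    have h6 : R ^ (e - 1) ≤ s ^ (e - 1) := Real.rpow_le_rpow hR0.le h3 (by linarith)
    rw [h5, ← mul_assoc]
    unfold cT7
    gcongr
    have : 0 < cOm 1 * (5 * 2 ^ e) := by positivity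
    linarith

end

end Crest.Agent.N067
end

-- ▼ part N067/K/Tub1
section

/-!
# Row 67, block K (helper53): the master inequality in a vertical tube
-/

set_option autoImplicit false

open MeasureTheory Topology Filter Set Metric InnerProductSpace
open scoped ENNReal RealInnerProductSpace Gradient

namespace Crest.Agent.N067

open Crest.Agent.R077

noncomputable section

theorem rpow_add_nat' {x : ℝ} (hx : 0 < x) {a b : ℝ} (m : ℕ) (h : a + b = m) :
    x ^ a * x ^ b = x ^ m := by rw [← Real.rpow_add hx, h, Real.rpow_natCast]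

theorem rpow_split {x : ℝ} (hx : 0 < x) {a b g : ℝ} (m : ℕ) (h : a + b = m + g) :
    x ^ a * x ^ b = x ^ m * x ^ g := by
  rw [← Real.rpow_add hx, h, Real.rpow_add hx, Real.rpow_natCast]

theorem ofReal3 {a b c : ℝ} (ha : 0 ≤ a) (hc : 0 ≤ c) :
    ENNReal.ofReal (a * b * c) = ENNReal.ofReal a * ENNReal.ofReal c * ENNReal.ofReal b := by
  rw [← ENNReal.ofReal_mul ha, ← ENNReal.ofReal_mul (mul_nonneg ha hc)]; congr 1; ring

theorem lint_const_le {X : Type*} [MeasurableSpace X] {μ : Measure X} {S : Set X}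
    (hS : MeasurableSet S) {f g : X → ℝ≥0∞} {m M : ℝ} (hm : 0 ≤ m)
    (h : ∀ x ∈ S, f x ≤ ENNReal.ofReal m * g x) (hg : ∫⁻ x in S, g x ∂μ ≤ ENNReal.ofReal M) :
    ∫⁻ x in S, f x ∂μ ≤ ENNReal.ofReal (m * M) := by
  calc _ ≤ ∫⁻ x in S, ENNReal.ofReal m * g x ∂μ := setLIntegral_mono' hS h
    _ = _ := lintegral_const_mul' _ _ ENNReal.ofReal_ne_top
    _ ≤ _ := by rw [ENNReal.ofReal_mul hm]; gcongr

/-- the outer term -/
theorem tube_T1 {G : EE 8 → ℝ} {γ P A f0 r R : ℝ} (c : EE 8) (hG : ∀ x, 0 ≤ G x) (hγ : 0 < γ)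
    (hP0 : 0 < P) (hP : P ≤ 5) (h2 : 5 < P + 2 * γ) (hA : 0 ≤ A) (hr : 0 < r) (hf : r ≤ f0)
    (hR : f0 ≤ R)
    (h : ∀ y s, f0 ≤ s → ∫⁻ x in ball y s, ENNReal.ofReal (G x) ≤
      ENNReal.ofReal (A * f0 ^ P * s ^ (7 - P))) :
    ∫⁻ x, ENNReal.ofReal (R ^ (-2 : ℝ) * (G x * rh I7 c r x ^ (-(2 * γ)) * Om c R x)) ≤
      ENNReal.ofReal (cT7 (7 - P) * A *
        (r ^ (-(2 * γ)) * f0 ^ 6 / R + (cIn (6 - P) (5 - P) + 1) * (f0 ^ 5 * f0 ^ (-(2 * γ))))) := by
  have hf0 : 0 < f0 := hr.trans_le hf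
  have hR0 : 0 < R := hf0.trans_le hR
  have hT := cT7_pos (e := 7 - P) (by linarith)
  have hI := cIn_pos (e := 6 - P) (α := 5 - P) (by linarith)
  have hm := measurable_rh I7 c r
  set F : EE 8 → ℝ≥0∞ := fun x => ENNReal.ofReal (G x) * ENNReal.ofReal (Om c R x) with hF
  have ht : ∀ s, f0 ≤ s → ∫⁻ x in {x | rh I7 c r x < s}, F x ≤
      ENNReal.ofReal (cT7 (7 - P) * (A * f0 ^ P) * R * s ^ (6 - P)) := fun s hs => by
    have := tube_Om (F := fun x => ENNReal.ofReal (G x)) (r0 := r) c hf0 hs hR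
      (A := A * f0 ^ P) (e := 7 - P) (by positivity) (by linarith) (by linarith) h
    rwa [show 7 - P - 1 = 6 - P by ring] at this
  have hu : ∫⁻ x, F x ≤ ENNReal.ofReal (cT7 (7 - P) * (A * f0 ^ P) * R * R ^ (6 - P)) := by
    refine (lay_Om (μ := volume) (F := fun x => ENNReal.ofReal (G x)) c (A := A * f0 ^ P)
      (e := 7 - P) hR0 (by positivity) (by linarith) fun s hs => h c s (hR.trans hs)).trans
      (ENNReal.ofReal_le_ofReal ?_)
    have e1 : R ^ (7 - P) = R * R ^ (6 - P) := by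
      rw [show 7 - P = 1 + (6 - P) by ring, Real.rpow_add hR0, Real.rpow_one]
    rw [e1, ← mul_assoc]
    have h1 := cOm_pos (e := 1) (by norm_num)
    gcongr
    unfold cT7
    have : 0 < cOm 1 * (5 * 2 ^ (7 - P)) := by positivity
    linarith
  have a1 := lay_piece (μ := volume) (F := F) (g := fun x => rh I7 c r x ^ (-(2 * γ)))
    (S := {x | rh I7 c r x < f0}) (m := r ^ (-(2 * γ))) (measurableSet_lt hm measurable_const)
    subset_rfl (by positivity)
    (fun x _ => Real.rpow_le_rpow_of_nonpos hr (le_rh _ _ x) (by linarith)) (ht f0 le_rfl)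
  have a2 := lay_all (μ := volume) (F := F) hm (a := f0) (S := R) (α := 5 - P) hf0 hR0
    (by positivity) (by linarith) (by linarith) (fun s hs _ => ht s hs) hu
  have a3 := lint_const_le (μ := volume) (S := {x | f0 ≤ rh I7 c r x})
    (measurableSet_le measurable_const hm)
    (f := fun x => F x * ENNReal.ofReal (rh I7 c r x ^ (-(2 * γ)))) (m := f0 ^ (5 - P - 2 * γ))
    (by positivity) (fun x hx => by
      have hx0 : 0 < rh I7 c r x := hf0.trans_le hx
      rw [mul_left_comm, ← ENNReal.ofReal_mul (by positivity)]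
      gcongr
      rw [show -(2 * γ) = (5 - P - 2 * γ) + -(5 - P) by ring, Real.rpow_add hx0]
      gcongr ?_ * _
      exact Real.rpow_le_rpow_of_nonpos hf0 hx (by linarith)) a2
  have a4 := lint_split (T := univ) (fun x _ => lt_or_ge (rh I7 c r x) f0) (by positivity)
    (by positivity) a1 a3
  have a5 := lint_const_le (μ := volume) (S := univ) MeasurableSet.univ
    (f := fun x => ENNReal.ofReal (R ^ (-2 : ℝ) * (G x * rh I7 c r x ^ (-(2 * γ)) * Om c R x)))
    (m := R ^ (-2 : ℝ)) (by positivity) (fun x _ => by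
      rw [ENNReal.ofReal_mul (by positivity), ofReal3 (hG x) (Om_pos c hR0 x).le]) a4
  rw [Measure.restrict_univ] at a5
  refine a5.trans (le_of_eq ?_)
  congr 1
  have e1 : f0 ^ P * f0 ^ (6 - P) = f0 ^ 6 := rpow_add_nat' hf0 6 (by push_cast; ring)
  have e2 : f0 ^ (5 - P - 2 * γ) * f0 ^ P = f0 ^ 5 * f0 ^ (-(2 * γ)) :=
    rpow_split hf0 5 (by push_cast; ring)
  have e3 : R ^ (-2 : ℝ) = (R ^ 2)⁻¹ := by
    rw [Real.rpow_neg hR0.le, Real.rpow_two]
  rw [show 6 - P - (5 - P) = (1 : ℝ) by ring, Real.rpow_one, e3, ← e1, ← e2]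
  field_simp

/-- the left-over term -/
theorem tube_T2 {W : EE 8 → ℝ} {γ P A f0 r R : ℝ} (c : EE 8) (hW : ∀ x, 0 ≤ W x) (hγ : 0 < γ)
    (hγ2 : γ < 2) (hP0 : 0 < P) (h2 : 5 < P + 2 * γ) (hA : 0 ≤ A) (hr : 1 ≤ r) (hf : r ≤ f0)
    (hR : f0 ≤ R)
    (h : ∀ y s, 1 ≤ s → ∫⁻ x in ball y s, ENNReal.ofReal (W x) ≤ ENNReal.ofReal (A * s ^ (7 : ℝ))) :
    ∫⁻ x, ENNReal.ofReal (min (f0 ^ (-2 : ℝ)) (f0 ^ P * rh I7 c r x ^ (-P - 2)) *
        (W x * rh I7 c r x ^ (-(2 * γ)) * Om c R x)) ≤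
      ENNReal.ofReal ((cIn 6 (2 * γ) + cOut 6 (P + 2 + 2 * γ)) * (cT7 7 * A) * R *
        (f0 ^ 4 * f0 ^ (-(2 * γ)))) := by
  have hr0 : 0 < r := one_pos.trans_le hr
  have hf0 : 0 < f0 := hr0.trans_le hf
  have hR0 : 0 < R := hf0.trans_le hR
  have hT := cT7_pos (e := 7) (by norm_num)
  have hI := cIn_pos (e := 6) (α := 2 * γ) (by linarith)
  have hO := cOut_pos (e := 6) (α := P + 2 + 2 * γ) (by linarith)
  have hm := measurable_rh I7 c r
  set F : EE 8 → ℝ≥0∞ := fun x => ENNReal.ofReal (W x) * ENNReal.ofReal (Om c R x) with hF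
  have ht : ∀ s, 1 ≤ s → ∫⁻ x in {x | rh I7 c r x < s}, F x ≤
      ENNReal.ofReal (cT7 7 * A * R * s ^ (6 : ℝ)) := fun s hs => by
    have := tube_Om (F := fun x => ENNReal.ofReal (W x)) (r0 := r) c one_pos hs
      ((hr.trans hf).trans hR) hA (e := 7) (by norm_num) (by norm_num) h
    rwa [show (7 : ℝ) - 1 = 6 by norm_num] at this
  have a1 := lay_in (μ := volume) (F := F) hm (a := r) (S := f0) (α := 2 * γ) hr0 hf0
    (by positivity) (by positivity) (by linarith) fun s hs _ => ht s (hr.trans hs)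
  have a2 := lay_out (μ := volume) (F := F) hm (a := f0) (α := P + 2 + 2 * γ) hf0
    (by positivity) (by positivity) (by linarith) fun s hs => ht s ((hr.trans hf).trans hs)
  set f : EE 8 → ℝ≥0∞ := fun x => ENNReal.ofReal (min (f0 ^ (-2 : ℝ))
    (f0 ^ P * rh I7 c r x ^ (-P - 2)) * (W x * rh I7 c r x ^ (-(2 * γ)) * Om c R x)) with hf'
  have hx0 : ∀ x, 0 < rh I7 c r x := fun x => hr0.trans_le (le_rh _ _ x)
  have b1 := lint_const_le (μ := volume) ((measurableSet_le measurable_const hm).inter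
    (measurableSet_lt hm measurable_const)) (f := f) (m := f0 ^ (-2 : ℝ)) (by positivity)
    (fun x _ => by
      have := hx0 x
      have := hW x
      have := Om_pos c hR0 x
      rw [← ofReal3 (hW x) (Om_pos c hR0 x).le, ← ENNReal.ofReal_mul (by positivity)]
      exact ENNReal.ofReal_le_ofReal (mul_le_mul_of_nonneg_right (min_le_left _ _) (by positivity)))
    a1
  have b2 := lint_const_le (μ := volume) (measurableSet_le measurable_const hm) (f := f)
    (m := f0 ^ P) (by positivity)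
    (fun x _ => by
      have h3 := hx0 x
      have := hW x
      have := Om_pos c hR0 x
      rw [← ofReal3 (hW x) (Om_pos c hR0 x).le, ← ENNReal.ofReal_mul (by positivity)]
      refine ENNReal.ofReal_le_ofReal ((mul_le_mul_of_nonneg_right (min_le_right _ _)
        (by positivity)).trans (le_of_eq ?_))
      rw [show -(P + 2 + 2 * γ) = (-P - 2) + -(2 * γ) by ring, Real.rpow_add h3]; ring)
    a2
  have a4 := lint_split (T := univ) (fun x _ => by
    rcases lt_or_ge (rh I7 c r x) f0 with h3 | h3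
    · exact Or.inl ⟨le_rh _ _ x, h3⟩
    · exact Or.inr h3) (by positivity) (by positivity) b1 b2
  rw [Measure.restrict_univ] at a4
  refine a4.trans (le_of_eq ?_)
  congr 1
  have e1 : f0 ^ (-2 : ℝ) * f0 ^ (6 - 2 * γ) = f0 ^ 4 * f0 ^ (-(2 * γ)) :=
    rpow_split hf0 4 (by push_cast; ring)
  have e2 : f0 ^ P * f0 ^ (6 - (P + 2 + 2 * γ)) = f0 ^ 4 * f0 ^ (-(2 * γ)) :=
    rpow_split hf0 4 (by push_cast; ring)
  calc _ = cIn 6 (2 * γ) * (cT7 7 * A * R) * (f0 ^ (-2 : ℝ) * f0 ^ (6 - 2 * γ)) +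
        cOut 6 (P + 2 + 2 * γ) * (cT7 7 * A * R) * (f0 ^ P * f0 ^ (6 - (P + 2 + 2 * γ))) := by ring
    _ = _ := by rw [e1, e2]; ring

variable {n : ℕ}

theorem Flat.mono {v : EE n → ℝ} {κ κ' : ℝ} {x : EE n} (h : Flat v κ x) (hκ : κ ≤ κ') :
    Flat v κ' x := fun z => (h z).trans (by gcongr)

theorem Sol.cont_grad_dd {v : EE n → ℝ} (h : Sol v) : Continuous (∇ (dd v)) :=
  (InnerProductSpace.toDual ℝ (EE n)).symm.continuous.comp
    ((h.dd_cd 1).continuous_fderiv (by simp))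

theorem Sol.isClosed_flat {v : EE n → ℝ} (h : Sol v) (κ : ℝ) : IsClosed {x | Flat v κ x} := by
  have h1 := h.dd_sm.continuous
  have h2 := h.cont_grad_dd
  simp only [Flat, setOf_forall]
  exact isClosed_iInter fun z => isClosed_le (by fun_prop) (by fun_prop)

theorem Sol.meas_Sh {v : EE n → ℝ} (h : Sol v) : MeasurableSet (Sh v) :=
  (isClosed_le h.dd_sm.continuous.abs continuous_const).measurableSet

theorem Sol.meas_bad {v : EE n → ℝ} (h : Sol v) (κ : ℝ) : MeasurableSet {x | ¬ Flat v κ x} :=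
  (h.isClosed_flat κ).measurableSet.compl

theorem meas_le_of_lint {X : Type*} [MeasurableSpace X] {μ : Measure X} {B T : Set X}
    (hB : MeasurableSet B) (hBT : B ⊆ T) {f : X → ℝ} {m M : ℝ} (hm : 0 < m)
    (hf : ∀ x ∈ B, m ≤ f x) (h : ∫⁻ x in T, ENNReal.ofReal (f x) ∂μ ≤ ENNReal.ofReal M) :
    μ B ≤ ENNReal.ofReal (m⁻¹ * M) := by
  rw [← setLIntegral_one]
  refine lint_const_le hB (g := fun x => ENNReal.ofReal (f x)) (by positivity) (fun x hx => ?_)
    ((lintegral_mono_set hBT).trans h)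
  rw [← ENNReal.ofReal_mul (by positivity), ← ENNReal.ofReal_one]
  refine ENNReal.ofReal_le_ofReal ?_
  rw [inv_mul_eq_div, one_le_div hm]
  exact hf x hx

theorem exists_rpow_le {D η δ : ℝ} (hη : η < 0) (hδ : 0 < δ) (a : ℝ) :
    ∃ F : ℝ, a ≤ F ∧ D * F ^ η ≤ δ := by
  have h1 : Tendsto (fun F : ℝ => D * F ^ η) atTop (𝓝 (D * 0)) := by
    refine Tendsto.const_mul D ?_
    simpa using tendsto_rpow_neg_atTop (neg_pos.2 hη)
  rw [mul_zero] at h1
  exact ((eventually_ge_atTop a).and (h1.eventually (ge_mem_nhds hδ))).exists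

/-- **the tube estimate**: few shallow points of a long thin tube are not flat -/
theorem tubeBad (hMI : MIStmt) (hP : PsiMassStmt) (hA : AreaStmt) {u : EE 8 → ℝ} {Θ : ℝ}
    (hu : Sol u) (hs : Stable u) (hn : ¬ Planar u) (hΘ : 0 ≤ Θ) (hM : Mass u Θ 7) {ε δ : ℝ}
    (hε : 0 < ε) (hδ : 0 < δ) : ∃ K0 r1 : ℝ, 1 ≤ K0 ∧ 1 ≤ r1 ∧ ∀ (K r : ℝ) (x0 : EE 8), K0 ≤ K →
      r1 ≤ r → volume (Sh u ∩ {x | ¬ Flat u (ε / r) x} ∩ {x | rh I7 x0 r x < 4 * r} ∩
        ball x0 (K * r)) ≤ ENNReal.ofReal (δ * K * r ^ 7) := by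
  obtain ⟨γ, s, P, θ, b, hE, hMI⟩ := hMI
  obtain ⟨C0, κ1, c, C, rs, fs, hC0, hκ1, hc, hC, hrs, hfs, hMI⟩ := hMI 8 u (Or.inr rfl) hu hs hn
  obtain ⟨A, hA0, hψ⟩ := hP 8 u Θ 7 b hu hΘ (by norm_num) hE.b0 hM
  have hpos : ∀ x, 0 < psi u x := fun x => one_sub_sq_pos (hu.lt x)
  obtain ⟨A', hA', hAr⟩ := hA 8 u γ s P θ b C0 κ1 c C rs A 7 (by norm_num) hE hC hrs hA0
    (by norm_num) le_rfl hψ hpos hu.psi_sm.continuous.measurable
  have hγ := hE.g0
  have hT := cT7_pos (e := 7 - P) (by linarith [hE.P0])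
  have hT7 := cT7_pos (e := 7) (by norm_num)
  have hI := cIn_pos (e := 6 - P) (α := 5 - P) (by linarith)
  have hI' := cIn_pos (e := 6) (α := 2 * γ) (by linarith [hE.g2])
  have hO := cOut_pos (e := 6) (α := P + 2 + 2 * γ) (by linarith [hE.c2])
  set m0 : ℝ := c * ε ^ (2 * s) * 4 ^ (-(2 * γ) - 2) with hm0
  have hm0' : 0 < m0 := by positivity
  set D2 : ℝ := m0⁻¹ * C * ((cIn 6 (2 * γ) + cOut 6 (P + 2 + 2 * γ)) * (cT7 7 * A)) with hD2
  obtain ⟨F, hF, hF2⟩ := exists_rpow_le (D := D2) (η := 4 - 2 * γ - 2 * s) (δ := δ / 2)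
    (by linarith [hE.c1]) (by positivity) (max 1 (C0 / ε))
  have hF1 : 1 ≤ F := (le_max_left _ _).trans hF
  have hF0 : 0 < F := one_pos.trans_le hF1
  set D1 : ℝ := m0⁻¹ * (F ^ (2 * s))⁻¹ * C * (cT7 (7 - P) * A' *
    (F ^ 6 + (cIn (6 - P) (5 - P) + 1) * (F ^ 5 * F ^ (-(2 * γ))))) with hD1
  refine ⟨max F (2 * D1 / δ), max (max rs fs) (ε / κ1), hF1.trans (le_max_left _ _),
    hrs.trans ((le_max_left _ _).trans (le_max_left _ _)), fun K r x0 hK hr => ?_⟩
  have hK1 : F ≤ K := (le_max_left _ _).trans hK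
  have hK2 : D1 ≤ δ / 2 * K := by
    have := (div_le_iff₀ hδ).1 ((le_max_right _ _).trans hK); linarith
  have hr1 : rs ≤ r := ((le_max_left _ _).trans (le_max_left _ _)).trans hr
  have hr2 : fs ≤ r := ((le_max_right _ _).trans (le_max_left _ _)).trans hr
  have hr3 : 1 ≤ r := hrs.trans hr1
  have hr0 : 0 < r := one_pos.trans_le hr3
  have hr4 : ε / r ≤ κ1 := by
    have := (div_le_iff₀ hκ1).1 ((le_max_right _ _).trans hr)
    rw [div_le_iff₀ hr0]; linarith
  have hf : r ≤ F * r := le_mul_of_one_le_left hr0.le hF1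
  have hR : F * r ≤ K * r := by gcongr
  have hK0 : 0 < K := hF0.trans_le hK1
  obtain ⟨G, J, hD⟩ := hMI (F * r) (hr2.trans hf)
  have t1 := tube_T1 x0 hD.nG hγ hE.P0 hE.P5 hE.c2 hA' hr0 hf hR fun y s hs =>
    hAr (F * r) G J (hr3.trans hf) hD y s ((hr1.trans hf).trans hs) hs
  have t2 := tube_T2 (W := fun x => psi u x ^ b) x0 (fun x => (Real.rpow_pos_of_pos (hpos x) b).le)
    hγ hE.g2 hE.P0 hE.c2 hA0 hr3 hf hR hψ
  have t3 := (hD.mi I7 x0 r (K * r) card_I7.ge hr1 (hf.trans hR) hR).trans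
    (mul_le_mul_right (add_le_add t1 t2) _)
  rw [← ENNReal.ofReal_add (by positivity) (by positivity), ← ENNReal.ofReal_mul hC.le] at t3
  have t4 := meas_le_of_lint (B := Sh u ∩ {x | ¬ Flat u (ε / r) x} ∩ {x | rh I7 x0 r x < 4 * r} ∩
    ball x0 (K * r)) (((hu.meas_Sh.inter (hu.meas_bad _)).inter
      (measurableSet_lt (measurable_rh _ _ _) measurable_const)).inter measurableSet_ball)
    inter_subset_right (m := c * (F * r * (ε / r)) ^ (2 * s) * (4 * r) ^ (-(2 * γ) - 2))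
    (by positivity) (fun x hx => by
      have h1 : C0 / (F * r) ≤ ε / r := by
        have := (div_le_iff₀ hε).1 ((le_max_right _ _).trans hF)
        rw [div_le_div_iff₀ (by positivity) hr0]; nlinarith
      have h2 := hD.low _ h1 hr4 x hx.1.1.1 hx.1.1.2
      have h3 : 0 < rh I7 x0 r x := hr0.trans_le (le_rh _ _ x)
      have h4 : (4 * r) ^ (-(2 * γ) - 2) ≤ rh I7 x0 r x ^ (-(2 * γ) - 2) :=
        Real.rpow_le_rpow_of_nonpos h3 (le_of_lt hx.1.2) (by linarith)
      have h5 := hD.nJ x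
      have h6 := hD.nG x
      exact le_add_of_le_of_nonneg (mul_le_mul h2 h4 (by positivity) h6) (by positivity)) t3
  refine t4.trans (ENNReal.ofReal_le_ofReal ?_)
  have e0 : F * r * (ε / r) = F * ε := by field_simp
  have e1 : r ^ (-(2 * γ) - 2) = r ^ (-(2 * γ)) / r ^ 2 := by
    rw [Real.rpow_sub hr0, Real.rpow_two]
  have e2 : F ^ (4 - 2 * γ - 2 * s) = F ^ 4 * F ^ (-(2 * γ)) / F ^ (2 * s) := by
    rw [Real.rpow_sub hF0, sub_eq_add_neg, Real.rpow_add hF0,
      show (4 : ℝ) = ((4 : ℕ) : ℝ) by norm_num, Real.rpow_natCast]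
  rw [e2] at hF2
  rw [e0, Real.mul_rpow hF0.le hε.le, Real.mul_rpow (by norm_num) hr0.le,
    Real.mul_rpow hF0.le hr0.le, e1]
  have hg : 0 < r ^ (-(2 * γ)) := by positivity
  have hg2 : 0 < F ^ (-(2 * γ)) := by positivity
  have hg3 : 0 < F ^ (2 * s) := by positivity
  generalize r ^ (-(2 * γ)) = g at hg
  calc _ = (m0⁻¹ * (F ^ (2 * s))⁻¹ * C * (cT7 (7 - P) * A' *
        (F ^ 6 / K + (cIn (6 - P) (5 - P) + 1) * (F ^ 5 * F ^ (-(2 * γ))))) +
        D2 * (F ^ 4 * F ^ (-(2 * γ)) / F ^ (2 * s)) * K) * r ^ 7 := by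
        rw [hD2, hm0]; field_simp
    _ ≤ (D1 + δ / 2 * K) * r ^ 7 := by
        rw [hD1]
        gcongr
        exact div_le_self (by positivity) (hF1.trans hK1)
    _ ≤ _ := by
        have : 0 < r ^ 7 := by positivity
        nlinarith

end

end Crest.Agent.N067
end

-- ▼ part N067/X7/Mon
section

/-! # Row 67, X7: Mon
ONE test field. Centre y, w = x - y, b = br w, k = cut R w (use a translated copy). X_j = k b^-7 w_j.
pdv i X_j = k b^-7 delta_ij - 7 k b^-9 w_i w_j + b^-7 w_j pdv i k.  With |grad v|^2 = en - PP (en_sub):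
en * div X - sum v_i v_j pdv i X_j = k [7 en b^-9 + PP b^-7 + 7 <grad v,w>^2 b^-9] + b^-7 [en <w,grad k> - <grad v,grad k><grad v,w>]
(8 en b^-7 - 7 en |w|^2 b^-9 - |grad v|^2 b^-7 = 7 en b^-9 + PP b^-7).  The last bracket lives on R <= |w| <= 2R and is
<= C R^-7 en (|grad v|^2 <= 2 en, |grad k| <= C/R, |w| <= 2R, b >= R).  So
int k [...] <= C R^-7 int_{ball y (2R)} en   (KEY, all terms >= 0 by Modica).
mon: y = 0, k = 1 on ball R, EnB at radius 2R.  dens: R = rho/2 >= 1/2; |grad v| <= L (RegStmt k=1) gives |v| <= 1/2 and en >= 9/64 on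
ball y r0, r0 = min(1/2, 1/(2L)), where k = 1 and b <= 2; en <= psi^2/2 (Bas.en_le).
-/

set_option autoImplicit false

open MeasureTheory Laplacian InnerProductSpace Topology Filter Set Metric
open scoped RealInnerProductSpace ContDiff Gradient

namespace Crest.Agent.N067.X7

open Crest.Agent.R077

namespace Mon'

/-- the test field, centred at the origin -/
noncomputable def Xf (R : ℝ) (j : Fin 8) (w : EE 8) : ℝ := cut R w * (br w)⁻¹ ^ 7 * w j

/-- the monotone quantity -/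
noncomputable def Fm (v : EE 8 → ℝ) (y x : EE 8) : ℝ :=
  en v x / br (x - y) ^ 9 + PP v x / br (x - y) ^ 7 + ⟪∇ v x, x - y⟫ ^ 2 / br (x - y) ^ 9

theorem contDiff_inv : ContDiff ℝ ∞ fun w : EE 8 => (br w)⁻¹ ^ 7 :=
  (contDiff_br.inv fun x => (br_pos x).ne').pow 7

theorem contDiff_Xf (R : ℝ) (j : Fin 8) : ContDiff ℝ ∞ (Xf R j) :=
  ((contDiff_cut' R).mul contDiff_inv).mul (contDiff_euclidean.1 contDiff_id j)

theorem pdv_Xf (R : ℝ) (i j : Fin 8) (w : EE 8) : pdv i (Xf R j) w =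
    (br w)⁻¹ ^ 7 * ((∇ (cut R) w) i * w j) - 7 * cut R w * (br w)⁻¹ ^ 9 * (w i * w j) +
      if j = i then cut R w * (br w)⁻¹ ^ 7 else 0 := by
  have h1 := (contDiff_cut' (n := 8) R).differentiable (by simp) w
  have h2 := contDiff_inv.differentiable (by simp) w
  have h3 : DifferentiableAt ℝ (fun y : EE 8 => y j) w :=
    (contDiff_euclidean.1 (contDiff_id (n := 1)) j).differentiable (by simp) w
  have h4 := pdv_comp ((hasDerivAt_inv (br_pos w).ne').fun_pow 7)
    (contDiff_br.differentiable (by simp) w) i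
  unfold Xf
  rw [pdv_mul (f := fun w => cut R w * (br w)⁻¹ ^ 7) (h1.mul h2) h3, pdv_mul h1 h2, h4, pdv_br,
    pdv_coord, grad_apply]
  have := (br_pos w).ne'
  split_ifs <;> simp <;> field_simp <;> ring

theorem alg (a κ w : EE 8) (e p q r : ℝ) {D : Fin 8 → Fin 8 → ℝ}
    (hD : ∀ i j, D i j = p * (κ i * w j) - q * (w i * w j) + if j = i then r else 0) :
    e * ∑ i, D i i - ∑ i, ∑ j, a i * a j * D i j =
      e * (p * ⟪κ, w⟫ - q * ‖w‖ ^ 2 + 8 * r) -
        (p * (⟪a, κ⟫ * ⟪a, w⟫) - q * ⟪a, w⟫ ^ 2 + r * ‖a‖ ^ 2) := by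
  have e1 : ∀ (c : ℝ) (f g : EE 8), ∑ i, ∑ j, a i * a j * (c * (f i * g j)) =
      c * ((∑ i, a i * f i) * ∑ j, a j * g j) := fun c f g => by
    rw [Finset.sum_mul_sum, Finset.mul_sum]
    exact Finset.sum_congr rfl fun i _ => by
      rw [Finset.mul_sum]; exact Finset.sum_congr rfl fun j _ => by ring
  simp only [hD, ← real_inner_self_eq_norm_sq, inner_eq_sum, mul_add, mul_sub,
    Finset.sum_add_distrib, Finset.sum_sub_distrib, e1, mul_ite, mul_zero, Finset.sum_ite_eq',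
    Finset.mem_univ, if_true, Finset.sum_const, Finset.card_univ, Fintype.card_fin]
  simp only [← Finset.mul_sum, ← Finset.sum_mul, nsmul_eq_mul]
  push_cast; ring

theorem cont_Fm {v : EE 8 → ℝ} (h : Sol v) (y : EE 8) : Continuous (Fm v y) := by
  have h1 := cont_en h
  have h2 := cont_psi h
  have h3 := h.continuous_tt
  have h4 := St.continuous_grad (contDiff_infty.1 h.sm 1)
  have h5 : Continuous fun x : EE 8 => br (x - y) := contDiff_br.continuous.comp (by fun_prop)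
  have h6 := fun k (x : EE 8) => (pow_pos (br_pos (x - y)) k).ne'
  unfold Fm PP
  exact ((h1.div (h5.pow 9) (h6 9)).add (Continuous.div (by fun_prop) (h5.pow 7) (h6 7))).add
    (Continuous.div (by fun_prop) (h5.pow 9) (h6 9))

theorem key (hB : Bas) (hS : StressStmt) : ∃ C : ℝ, 0 < C ∧ ∀ (v : EE 8 → ℝ) (y : EE 8) (R r : ℝ),
    Sol v → 0 < R → r ≤ R → ∫ x in ball y r, Fm v y x ≤ C / R ^ 7 * ∫ x in ball y (2 * R), en v x := by
  obtain ⟨C, hC, hk⟩ := exists_gsq_cut 8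
  refine ⟨6 * (C + 1), by positivity, fun v y R r h hR hr => ?_⟩
  have hX : ∀ j, ContDiff ℝ 1 fun x => Xf R j (x - y) := fun j =>
    (contDiff_infty.1 (contDiff_Xf R j) 1).comp (contDiff_id.sub contDiff_const)
  have hfar : ∀ x, x ∉ closedBall y (2 * R) → 2 * R ≤ ‖x - y‖ := fun x hx =>
    (not_le.1 (mt mem_closedBall_iff_norm.2 hx)).le
  have h0 := hS 8 v (fun j x => Xf R j (x - y)) h hX fun j =>
    HasCompactSupport.intro (isCompact_closedBall y (2 * R)) fun x hx => by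
      simp [Xf, cut_zero hR (hfar x hx)]
  set G : EE 8 → ℝ := fun x => en v x * ∑ i, pdv i (fun x => Xf R i (x - y)) x -
    ∑ i, ∑ j, pdv i v x * pdv j v x * pdv i (fun x => Xf R j (x - y)) x with hG
  have hGc : Continuous G := by
    have h1 := cont_en h
    have h2 := fun i => St.continuous_pdv (contDiff_infty.1 h.sm 1) i
    have h3 := fun i j => St.continuous_pdv (hX j) i
    simp only [hG]; fun_prop
  have hGe : ∀ x, G x = cut R (x - y) * (Fm v y x + 6 * (br (x - y))⁻¹ ^ 9 *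
      (en v x + ⟪∇ v x, x - y⟫ ^ 2)) + (br (x - y))⁻¹ ^ 7 * (en v x * ⟪∇ (cut R) (x - y), x - y⟫ -
        ⟪∇ v x, ∇ (cut R) (x - y)⟫ * ⟪∇ v x, x - y⟫) := fun x => by
    have h1 := alg (∇ v x) (∇ (cut R) (x - y)) (x - y) (en v x) _ _ _
      (D := fun i j => pdv i (fun x => Xf R j (x - y)) x) fun i j =>
        (congrArg (fun T : EE 8 →L[ℝ] ℝ => T (ev i)) (fderiv_comp_sub y)).trans
          (pdv_Xf R i j (x - y))
    simp only [grad_apply] at h1
    have h2 : ‖x - y‖ ^ 2 = br (x - y) ^ 2 - 1 := by rw [br_sq]; ring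
    have h3 : ‖∇ v x‖ ^ 2 = en v x - PP v x := by rw [← en_sub h]; ring
    have := (br_pos (x - y)).ne'
    refine h1.trans ?_
    rw [h2, h3, Fm]; field_simp; ring
  have hz : ∀ w : EE 8, gsq (cut R) w = 0 → ∇ (cut R) w = 0 := fun w hw => by
    rwa [gsq_eq, sq_eq_zero_iff, norm_eq_zero] at hw
  have hG0 : ∀ x, 2 * R ≤ ‖x - y‖ → G x = 0 := fun x hx => by
    simp [hGe, cut_zero hR hx, hz _ ((hk R hR _).2.1 hx)]
  have hGi : Integrable G := hGc.integrable_of_hasCompactSupport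
    (HasCompactSupport.intro (isCompact_closedBall y (2 * R)) fun x hx => hG0 x (hfar x hx))
  have hE := (intOn (f := fun x => 6 * (C + 1) / R ^ 7 * en v x) (continuous_const.mul (cont_en h))
    (y := y) (r := 2 * R) Subset.rfl).integrable_indicator measurableSet_ball
  rw [← integral_const_mul, ← integral_indicator measurableSet_ball,
    ← integral_indicator measurableSet_ball, ← zero_add (∫ x, indicator (ball y (2 * R)) _ x), ← h0,
    ← integral_add hGi hE]
  refine integral_mono ((intOn (cont_Fm h y) Subset.rfl).integrable_indicator measurableSet_ball)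
    (hGi.add hE) fun x => ?_
  have he := en_nonneg v x
  have hb := br_pos (x - y)
  have hF : 0 ≤ Fm v y x := by have := hB.PP_nonneg h x; unfold Fm; positivity
  have hI : 0 ≤ indicator (ball y (2 * R)) (fun x => 6 * (C + 1) / R ^ 7 * en v x) x :=
    indicator_nonneg (fun z _ => by have := en_nonneg v z; positivity) x
  have h6 : 0 ≤ 6 * (br (x - y))⁻¹ ^ 9 * (en v x + ⟪∇ v x, x - y⟫ ^ 2) := by positivity
  beta_reduce
  rcases lt_or_ge ‖x - y‖ R with h1 | h1
  · rw [hGe, cut_one hR h1.le, hz _ ((hk R hR _).2.2 h1)]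
    have := indicator_le_self' (s := ball y r) (f := Fm v y) (fun _ _ => ?_) x
    · simp only [inner_zero_left, inner_zero_right]; linarith
    · have := hB.PP_nonneg h ‹_›; have := en_nonneg v ‹_›; have := br_pos (‹_› - y)
      unfold Fm; positivity
  rw [indicator_of_notMem (fun hx => by linarith [mem_ball_iff_norm.1 hx])]
  rcases le_or_gt (2 * R) ‖x - y‖ with h2 | h2
  · rw [hG0 x h2, zero_add]; exact hI
  rw [indicator_of_mem (mem_ball_iff_norm.2 h2), hGe]
  have k1 : ‖∇ (cut R) (x - y)‖ ≤ (C + 1) / R := by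
    refine (abs_le_of_sq_le_sq' ?_ (by positivity)).2
    rw [← gsq_eq, div_pow]
    exact (hk R hR _).1.trans (by gcongr; nlinarith)
  have k2 : ‖∇ (cut R) (x - y)‖ * ‖x - y‖ ≤ 2 * (C + 1) :=
    (mul_le_mul k1 h2.le (norm_nonneg _) (by positivity)).trans_eq (by field_simp)
  have k3 : ‖∇ v x‖ ^ 2 ≤ 2 * en v x := by unfold en; nlinarith [sq_nonneg (1 - v x ^ 2)]
  have k4 := (abs_le.1 ((abs_real_inner_le_norm _ _).trans k2)).1
  have k5 : ⟪∇ v x, ∇ (cut R) (x - y)⟫ * ⟪∇ v x, x - y⟫ ≤ 2 * en v x * (2 * (C + 1)) := by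
    refine (le_abs_self _).trans ?_
    rw [abs_mul]
    calc _ ≤ ‖∇ v x‖ * ‖∇ (cut R) (x - y)‖ * (‖∇ v x‖ * ‖x - y‖) := by
          gcongr <;> exact abs_real_inner_le_norm _ _
      _ = ‖∇ v x‖ ^ 2 * (‖∇ (cut R) (x - y)‖ * ‖x - y‖) := by ring
      _ ≤ _ := by gcongr
  have k6 : (br (x - y))⁻¹ ^ 7 ≤ R⁻¹ ^ 7 := by gcongr; exact h1.trans (norm_le_br _)
  have k7 := mul_le_mul_of_nonneg_left (show -(6 * (C + 1) * en v x) ≤ en v x *
    ⟪∇ (cut R) (x - y), x - y⟫ - ⟪∇ v x, ∇ (cut R) (x - y)⟫ * ⟪∇ v x, x - y⟫ by nlinarith)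
    (show 0 ≤ (br (x - y))⁻¹ ^ 7 by positivity)
  have k8 := mul_le_mul_of_nonneg_right k6 (show 0 ≤ 6 * (C + 1) * en v x by positivity)
  have k9 := mul_nonneg (cut_nonneg R (x - y)) (add_nonneg hF h6)
  rw [div_eq_mul_inv, ← inv_pow]
  linarith

end Mon'

open Mon' in
theorem dens (hB : Bas) (hS : StressStmt) : DensStmt := by
  obtain ⟨C, hC, hk⟩ := key hB hS
  obtain ⟨L, hL⟩ := hB.reg 8 1
  set r : ℝ := 1 / (2 * (|L| + 1)) with hr
  have r0 : 0 < r := by positivity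
  have r1 : (|L| + 1) * r = 1 / 2 := by rw [hr]; field_simp
  have r2 : r ≤ 1 / 2 := by nlinarith [abs_nonneg L]
  have hV : 0 < volume.real (ball (0 : EE 8) r) :=
    ENNReal.toReal_pos (measure_ball_pos _ _ r0).ne' measure_ball_lt_top.ne
  refine ⟨9 / 64 / 2 ^ 9 * volume.real (ball (0 : EE 8) r) / (64 * C), by positivity,
    fun v y h hy ρ hρ => ?_⟩
  have h1 := hk v y (ρ / 2) r h (by linarith) (by linarith)
  have h2 : ∫ x in ball y (2 * (ρ / 2)), en v x ≤ 1 / 2 * mu v (ball y ρ) fun _ => 1 := by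
    rw [mul_div_cancel₀ _ two_ne_zero, mu, ← integral_const_mul]
    exact setIntegral_mono_on (intOn (cont_en h) Subset.rfl)
      (intOn (continuous_const.mul (continuous_const.mul ((cont_psi h).pow 2))) Subset.rfl)
      measurableSet_ball fun x _ => by linarith [hB.en_le h x]
  have h3 : 9 / 64 / 2 ^ 9 * volume.real (ball y r) ≤ ∫ x in ball y r, Fm v y x := by
    refine setIntegral_ge_of_const_le_real measurableSet_ball measure_ball_lt_top.ne
      (fun x hx => ?_) (intOn (cont_Fm h y) Subset.rfl)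
    have hx' := mem_ball_iff_norm.1 hx
    have a1 := Convex.norm_image_sub_le_of_norm_fderiv_le (𝕜 := ℝ) (C := |L| + 1) (f := v)
      (fun z _ => h.sm.differentiable (by simp) z) (fun z _ => by
        have := (hL v h.isSol).2 z
        rw [norm_iteratedFDeriv_one] at this
        linarith [le_abs_self L]) convex_univ (mem_univ y) (mem_univ x)
    rw [hy, sub_zero, Real.norm_eq_abs] at a1
    have a2 : |v x| ≤ 1 / 2 := a1.trans (r1 ▸ by gcongr)
    have a3 : 9 / 64 ≤ en v x := by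
      have : v x ^ 2 ≤ 1 / 4 := by nlinarith [sq_abs (v x), abs_nonneg (v x)]
      unfold en; nlinarith [sq_nonneg ‖∇ v x‖]
    have a4 : br (x - y) ≤ 2 := by linarith [br_le (x - y)]
    have hb := br_pos (x - y)
    have := hB.PP_nonneg h x
    refine le_add_of_le_of_nonneg (le_add_of_le_of_nonneg ?_ (by positivity)) (by positivity)
    gcongr
  rw [Measure.addHaar_real_ball_center] at h3
  have h4 := (h3.trans h1).trans (mul_le_mul_of_nonneg_left h2 (by positivity))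
  rw [div_mul_eq_mul_div, div_le_iff₀ (by positivity)]
  refine (mul_le_mul_of_nonneg_right h4 (by positivity)).trans_eq ?_
  field_simp; ring

open Mon' in
theorem mon (hB : Bas) (hS : StressStmt) : MonStmt := by
  obtain ⟨C, hC, hk⟩ := key hB hS
  refine fun v Θ h hE => ⟨C * Θ * 2 ^ 7, fun R hR => ?_⟩
  have h1 := hk v 0 R R h (by linarith) le_rfl
  simp only [Fm, sub_zero] at h1
  refine (h1.trans (mul_le_mul_of_nonneg_left (hE 0 _ (by linarith)) (by positivity))).trans_eq ?_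
  field_simp

end Crest.Agent.N067.X7
end

-- ▼ part N067/X7/K
section

/-! # Row 67, X7: K
z0 = br^-5, pdv i z0 = -5 x_i br^-7, k = cut R, zeta = k^2 z0, grad zeta = k^2 grad z0 + 2 k z0 grad k.
(a) |2 k z0 gin F k| psi^2 <= eta G zeta psi^2 + (1/eta) z0 gsq k psi^2, last integral <= C R^-7 mu(ball 2R) <= C (mu_one_le).
(b) pointwise, for vectors a,b: (psi^2/2)<a,b> = T(a,b) + PP <a,b> + <grad v,a><grad v,b>, T(a,b) = en <a,b> - <grad v,a><grad v,b>
 (psi^2/2 = en + PP: en_eq).  a = grad F, b = k^2 grad z0.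
 T-term: StressStmt with X_j = F k^2 pdv j z0: int T(grad F, k^2 grad z0) = - int F [k^2 T:D^2 z0 + T(grad k^2, grad z0)];
 T:D^2 z0 = -35 en br^-9 - 5 PP br^-7 - 35 <grad v,x>^2 br^-9 (bounded by MonStmt at radius 2R), second part <= C R^-7 en on the annulus.
 PP-term: PP |grad F| 5 br^-6 k^2 <= eta G zeta psi^2 + (C/eta) PP br^-7 (PP^2/psi^2 = PP t/4 <= PP/4).
 last term: |<grad v,grad F>| 5 |<grad v,x>| br^-7 k^2, |grad v|^2 <= psi^2/2: <= eta G zeta psi^2 + (C/eta) <grad v,x>^2 br^-9.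
-/

set_option autoImplicit false

open MeasureTheory Laplacian InnerProductSpace Topology Filter Set Metric
open scoped RealInnerProductSpace ContDiff Gradient

namespace Crest.Agent.N067.X7

open Crest.Agent.R077

namespace K'

variable {n : ℕ}

/-! ### real inequalities -/

theorem sq_core {ε δ g u : ℝ} (hδ : 0 ≤ δ) (h : ε * δ = 1) :
    10 * u * g ≤ 4 * ε * g ^ 2 + 25 / 4 * δ * u ^ 2 := by
  have h1 : 0 ≤ δ / 4 * (4 * ε * g - 5 * u) ^ 2 := by positivity
  have h2 : δ / 4 * (4 * ε * g - 5 * u) ^ 2 =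
      4 * ε * (ε * δ) * g ^ 2 - 10 * (ε * δ) * u * g + 25 / 4 * δ * u ^ 2 := by ring
  rw [h2, h] at h1
  linarith

set_option maxHeartbeats 800000 in
/-- the pointwise bound, all in real variables; `u = 1 / br`, primed quantities are divided by `br` -/
theorem pw {ε δ C0 ρ u k f g G κ p2 e P o A K W WA WK AK : ℝ} (hε : 0 ≤ ε) (hδ : 0 ≤ δ)
    (hεδ : ε * δ = 1) (hu : 0 ≤ u) (hk0 : 0 ≤ k) (hk1 : k ≤ 1) (hf : |f| ≤ 1)
    (hG : g ^ 2 ≤ G) (hκ : 0 ≤ κ) (hP : 0 ≤ P) (hP4 : 4 * P ≤ p2) (hp : p2 ≤ 4 * e)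
    (hoe : o ^ 2 ≤ e) (hop : 2 * o ^ 2 ≤ p2) (ho : 0 ≤ o) (_hg : 0 ≤ g)
    (hA : |A| ≤ g) (hK : |K| ≤ κ) (hW : |W| ≤ o) (hWA : |WA| ≤ o * g) (hWK : |WK| ≤ o * κ)
    (hAK : |AK| ≤ g * κ) (h1 : u ^ 5 * κ ^ 2 ≤ C0 * ρ) (h2 : u ^ 6 * κ ≤ (1 + C0) * ρ) :
    |-10 * k ^ 2 * u ^ 6 * P * A - 10 * k ^ 2 * u ^ 6 * WA * W + 2 * k * p2 * u ^ 5 * AK +
        20 * k * f * u ^ 6 * (e * K - WK * W) +
        10 * f * k ^ 2 * (P * u ^ 7 + 7 * e * u ^ 9 + 7 * W ^ 2 * u ^ 7)| ≤
      3 * ε * (G * (k ^ 2 * u ^ 5) * p2) +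
        (70 + 25 / 2 * δ) * (e * u ^ 9 + P * u ^ 7 + W ^ 2 * u ^ 7) +
        (4 * C0 * δ + 40 * (1 + C0)) * ρ * e := by
  have he : 0 ≤ e := le_trans (sq_nonneg _) hoe
  have hp0 : 0 ≤ p2 := by linarith
  have hk2 : k ^ 2 ≤ 1 := pow_le_one₀ hk0 hk1
  have hu5 : 0 ≤ u ^ 5 := by positivity
  have hu7 : 0 ≤ u ^ 7 := by positivity
  have hGG : ε * (g ^ 2 * (k ^ 2 * u ^ 5) * p2) ≤ ε * (G * (k ^ 2 * u ^ 5) * p2) := by gcongr
  have t1 : |-10 * k ^ 2 * u ^ 6 * P * A| ≤
      ε * (g ^ 2 * (k ^ 2 * u ^ 5) * p2) + 25 / 4 * δ * (P * u ^ 7) := by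
    have a1 : |-10 * k ^ 2 * u ^ 6 * P * A| = 10 * k ^ 2 * u ^ 6 * P * |A| := by
      rw [abs_mul, show -10 * k ^ 2 * u ^ 6 * P = -(10 * k ^ 2 * u ^ 6 * P) by ring, abs_neg,
        abs_of_nonneg (by positivity)]
    have a2 := sq_core (g := g) (u := u) hδ hεδ
    have a3 : P * (10 * u * g) ≤ ε * g ^ 2 * p2 + 25 / 4 * δ * u ^ 2 * P := by
      have := mul_le_mul_of_nonneg_left a2 hP
      have b : ε * g ^ 2 * (4 * P) ≤ ε * g ^ 2 * p2 := by gcongr
      linarith
    have a4 := mul_le_mul_of_nonneg_left a3 (show 0 ≤ k ^ 2 * u ^ 5 by positivity)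
    have a5 : 10 * k ^ 2 * u ^ 6 * P * |A| ≤ 10 * k ^ 2 * u ^ 6 * P * g := by gcongr
    have a6 : k ^ 2 * (25 / 4 * δ * (P * u ^ 7)) ≤ 1 * (25 / 4 * δ * (P * u ^ 7)) := by gcongr
    rw [a1]
    calc _ ≤ 10 * k ^ 2 * u ^ 6 * P * g := a5
      _ = k ^ 2 * u ^ 5 * (P * (10 * u * g)) := by ring
      _ ≤ _ := a4
      _ = ε * (g ^ 2 * (k ^ 2 * u ^ 5) * p2) + k ^ 2 * (25 / 4 * δ * (P * u ^ 7)) := by ring
      _ ≤ _ := by linarith
  have t2 : |10 * k ^ 2 * u ^ 6 * WA * W| ≤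
      ε * (g ^ 2 * (k ^ 2 * u ^ 5) * p2) + 25 / 2 * δ * (W ^ 2 * u ^ 7) := by
    have a1 : |10 * k ^ 2 * u ^ 6 * WA * W| = 10 * k ^ 2 * u ^ 6 * |WA| * |W| := by
      rw [abs_mul, abs_mul, abs_of_nonneg (by positivity)]
    have a2 := sq_core (ε := ε / 2) (δ := 2 * δ) (g := o * g) (u := u * |W|) (by positivity)
      (by linarith)
    have a3 : 10 * (u * |W|) * (o * g) ≤ ε * g ^ 2 * p2 + 25 / 2 * δ * (u ^ 2 * W ^ 2) := by
      have b : ε * g ^ 2 * (2 * o ^ 2) ≤ ε * g ^ 2 * p2 := by gcongr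
      rw [mul_pow u, sq_abs] at a2
      linarith
    have a4 := mul_le_mul_of_nonneg_left a3 (show 0 ≤ k ^ 2 * u ^ 5 by positivity)
    have a5 : 10 * k ^ 2 * u ^ 6 * |WA| * |W| ≤ 10 * k ^ 2 * u ^ 6 * (o * g) * |W| := by gcongr
    have a6 : k ^ 2 * (25 / 2 * δ * (W ^ 2 * u ^ 7)) ≤ 1 * (25 / 2 * δ * (W ^ 2 * u ^ 7)) := by
      gcongr
    rw [a1]
    calc _ ≤ _ := a5
      _ = k ^ 2 * u ^ 5 * (10 * (u * |W|) * (o * g)) := by ring
      _ ≤ _ := a4
      _ = ε * (g ^ 2 * (k ^ 2 * u ^ 5) * p2) + k ^ 2 * (25 / 2 * δ * (W ^ 2 * u ^ 7)) := by ring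
      _ ≤ _ := by linarith
  have t3 : |2 * k * p2 * u ^ 5 * AK| ≤
      ε * (g ^ 2 * (k ^ 2 * u ^ 5) * p2) + 4 * C0 * δ * ρ * e := by
    have a1 : |2 * k * p2 * u ^ 5 * AK| = 2 * k * p2 * u ^ 5 * |AK| := by
      rw [abs_mul, abs_of_nonneg (by positivity)]
    have a2 : 2 * (k * g) * κ ≤ ε * (k * g) ^ 2 + δ * κ ^ 2 := by
      have b1 : 0 ≤ δ * (ε * (k * g) - κ) ^ 2 := by positivity
      have b2 : δ * (ε * (k * g) - κ) ^ 2 =
          ε * (ε * δ) * (k * g) ^ 2 - 2 * (ε * δ) * (k * g) * κ + δ * κ ^ 2 := by ring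
      rw [b2, hεδ] at b1
      linarith
    have a4 := mul_le_mul_of_nonneg_left a2 (show 0 ≤ p2 * u ^ 5 by positivity)
    have a5 : 2 * k * p2 * u ^ 5 * |AK| ≤ 2 * k * p2 * u ^ 5 * (g * κ) := by gcongr
    have a6 : δ * (p2 * (u ^ 5 * κ ^ 2)) ≤ δ * (4 * e * (C0 * ρ)) := by gcongr
    rw [a1]
    calc _ ≤ _ := a5
      _ = p2 * u ^ 5 * (2 * (k * g) * κ) := by ring
      _ ≤ _ := a4
      _ = ε * (g ^ 2 * (k ^ 2 * u ^ 5) * p2) + δ * (p2 * (u ^ 5 * κ ^ 2)) := by ring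
      _ ≤ _ := by linarith
  have t4 : |20 * k * f * u ^ 6 * (e * K - WK * W)| ≤ 40 * (1 + C0) * ρ * e := by
    have a1 : |e * K - WK * W| ≤ 2 * e * κ := by
      have b1 : |e * K| ≤ e * κ := by rw [abs_mul, abs_of_nonneg he]; gcongr
      have b2 : |WK * W| ≤ o * κ * o := by rw [abs_mul]; gcongr
      have b3 : κ * o ^ 2 ≤ κ * e := by gcongr
      have := abs_sub (e * K) (WK * W)
      linarith
    have a2 : |20 * k * f * u ^ 6 * (e * K - WK * W)| =
        20 * k * |f| * u ^ 6 * |e * K - WK * W| := by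
      rw [abs_mul, abs_mul, abs_mul, abs_of_nonneg (show 0 ≤ 20 * k by positivity),
        abs_of_nonneg (show 0 ≤ u ^ 6 by positivity)]
    have a3 : e * (u ^ 6 * κ) ≤ e * ((1 + C0) * ρ) := by gcongr
    rw [a2]
    calc _ ≤ 20 * 1 * 1 * u ^ 6 * (2 * e * κ) := by gcongr
      _ = 40 * (e * (u ^ 6 * κ)) := by ring
      _ ≤ _ := by linarith
  have t5 : |10 * f * k ^ 2 * (P * u ^ 7 + 7 * e * u ^ 9 + 7 * W ^ 2 * u ^ 7)| ≤
      70 * (e * u ^ 9 + P * u ^ 7 + W ^ 2 * u ^ 7) := by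
    have a0 : 0 ≤ P * u ^ 7 + 7 * e * u ^ 9 + 7 * W ^ 2 * u ^ 7 := by positivity
    have a2 : |10 * f * k ^ 2 * (P * u ^ 7 + 7 * e * u ^ 9 + 7 * W ^ 2 * u ^ 7)| =
        10 * |f| * k ^ 2 * (P * u ^ 7 + 7 * e * u ^ 9 + 7 * W ^ 2 * u ^ 7) := by
      rw [abs_mul, abs_mul, abs_mul, abs_of_nonneg a0, abs_of_nonneg (sq_nonneg k),
        abs_of_nonneg (show (0 : ℝ) ≤ 10 by norm_num)]
    have a3 : 0 ≤ P * u ^ 7 := by positivity
    rw [a2]
    calc _ ≤ 10 * 1 * 1 * (P * u ^ 7 + 7 * e * u ^ 9 + 7 * W ^ 2 * u ^ 7) := by gcongr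
      _ ≤ _ := by linarith
  have s1 : 0 ≤ δ * (e * u ^ 9) := by positivity
  have s2 : 0 ≤ δ * (P * u ^ 7) := by positivity
  rw [abs_le] at t1 t2 t3 t4 t5 ⊢
  constructor <;> linarith [t1.1, t1.2, t2.1, t2.2, t3.1, t3.2, t4.1, t4.2, t5.1, t5.2]

/-! ### derivatives -/

theorem pdv_ibr (m : ℕ) (i : Fin n) (x : EE n) :
    pdv i (fun y => (br y)⁻¹ ^ (m + 1)) x = -(m + 1) * x i * (br x)⁻¹ ^ (m + 3) := by
  have hb := br_pos x
  have h1 : HasDerivAt (fun s : ℝ => s⁻¹ ^ (m + 1))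
      (((m + 1 : ℕ) : ℝ) * (br x)⁻¹ ^ (m + 1 - 1) * (-(br x ^ 2)⁻¹)) (br x) :=
    (hasDerivAt_inv hb.ne').fun_pow (m + 1)
  rw [pdv_comp h1 ((contDiff_br.differentiable (by simp)) x) i, pdv_br]
  simp only [Nat.add_sub_cancel, Nat.cast_add, Nat.cast_one, div_eq_mul_inv, ← inv_pow]
  ring

theorem contDiff_ibr : ContDiff ℝ ∞ (fun y : EE n => (br y)⁻¹) :=
  contDiff_br.inv fun x => (br_pos x).ne'

theorem zeta_eq (R : ℝ) : (zeta R : EE n → ℝ) = fun y => cut R y ^ 2 * (br y)⁻¹ ^ 5 := by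
  funext y; simp [zeta, div_eq_mul_inv]

theorem pdv_kb (R : ℝ) (m : ℕ) (i : Fin n) (x : EE n) :
    pdv i (fun y => cut R y ^ 2 * (br y)⁻¹ ^ (m + 1)) x =
      2 * cut R x * (br x)⁻¹ ^ (m + 1) * pdv i (cut R) x -
        (m + 1) * cut R x ^ 2 * (br x)⁻¹ ^ (m + 3) * x i := by
  have h1 : DifferentiableAt ℝ (cut R : EE n → ℝ) x := (contDiff_cut' R).differentiable (by simp) x
  have h2 : DifferentiableAt ℝ (fun y : EE n => (br y)⁻¹) x :=
    contDiff_ibr.differentiable (by simp) x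
  rw [pdv_mul (f := fun y => cut R y ^ 2) (g := fun y => (br y)⁻¹ ^ (m + 1)) (h1.pow 2)
    (h2.pow (m + 1)), pdv_sq h1, pdv_ibr]
  ring

theorem gin_zeta (F : EE n → ℝ) (R : ℝ) (x : EE n) :
    gin F (zeta R) x = 2 * cut R x * (br x)⁻¹ ^ 5 * ⟪∇ F x, ∇ (cut R) x⟫ -
      5 * cut R x ^ 2 * (br x)⁻¹ ^ 7 * ⟪∇ F x, x⟫ := by
  rw [zeta_eq, gin, inner_eq_sum, inner_eq_sum, Finset.mul_sum, Finset.mul_sum,
    ← Finset.sum_sub_distrib]
  refine Finset.sum_congr rfl fun i _ => ?_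
  rw [pdv_kb R 4 i x, grad_apply, grad_apply]
  push_cast; ring

/-- the radial test field `X = h x` in the stress-energy identity -/
theorem stress_rad (hS : StressStmt) {v h : EE n → ℝ} (hv : Sol v) (hh : ContDiff ℝ 1 h)
    (hc : HasCompactSupport h) :
    ∫ x, (en v x * (⟪∇ h x, x⟫ + n * h x) - ⟪∇ v x, ∇ h x⟫ * ⟪∇ v x, x⟫ - h x * ‖∇ v x‖ ^ 2)
      = 0 := by
  have hco : ∀ j : Fin n, ContDiff ℝ 1 fun y : EE n => y j := fun j =>
    (EuclideanSpace.proj j : EE n →L[ℝ] ℝ).contDiff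
  have h0 := hS n v (fun j y => h y * y j) hv (fun j => hh.mul (hco j)) fun j => hc.mul_right
  rw [← h0]
  refine integral_congr_ae (Eventually.of_forall fun x => ?_)
  have hp : ∀ i j : Fin n, pdv i (fun y => h y * y j) x =
      pdv i h x * x j + h x * (if j = i then 1 else 0) := fun i j => by
    rw [pdv_mul (f := h) (g := fun y : EE n => y j) (hh.differentiable (by simp) x)
      ((hco j).differentiable (by simp) x), pdv_coord]
  simp only [hp, inner_eq_sum, grad_apply, St.norm_grad_sq, if_true, mul_one,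
    Finset.sum_add_distrib, Finset.sum_const, Finset.card_univ, Fintype.card_fin, nsmul_eq_mul,
    mul_add, mul_ite, mul_zero, Finset.sum_ite_eq', Finset.mem_univ]
  rw [Finset.sum_mul_sum]
  have e1 : ∑ i, ∑ j, pdv i v x * pdv i h x * (pdv j v x * x j) =
      ∑ i, ∑ j, pdv i v x * pdv j v x * (pdv i h x * x j) :=
    Finset.sum_congr rfl fun i _ => Finset.sum_congr rfl fun j _ => by ring
  have e2 : h x * ∑ i, pdv i v x ^ 2 = ∑ i, pdv i v x * pdv i v x * h x := by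
    rw [Finset.mul_sum]; exact Finset.sum_congr rfl fun i _ => by ring
  rw [e1, e2]
  ring

theorem idn {u k f p2 e P o2 N A K W WA WK AK : ℝ} (hp : p2 = 2 * (e + P)) (ho : o2 = e - P)
    (hN : u ^ 2 * N = 1 - u ^ 2) :
    (2 * k * u ^ 5 * AK - 5 * k ^ 2 * u ^ 7 * A) * p2 +
      10 * (e * ((k ^ 2 * u ^ 7 * A + 2 * k * f * u ^ 7 * K - 7 * f * k ^ 2 * u ^ 9 * N) +
          8 * (f * (k ^ 2 * u ^ 7))) -
        (k ^ 2 * u ^ 7 * WA + 2 * k * f * u ^ 7 * WK - 7 * f * k ^ 2 * u ^ 9 * W) * W -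
        f * (k ^ 2 * u ^ 7) * o2) =
    -10 * k ^ 2 * u ^ 6 * P * (u * A) - 10 * k ^ 2 * u ^ 6 * WA * (u * W) +
        2 * k * p2 * u ^ 5 * AK + 20 * k * f * u ^ 6 * (e * (u * K) - WK * (u * W)) +
        10 * f * k ^ 2 * (P * u ^ 7 + 7 * e * u ^ 9 + 7 * (u * W) ^ 2 * u ^ 7) := by
  subst hp ho
  linear_combination (-70 * e * f * k ^ 2 * u ^ 7) * hN

theorem abs_rad (a x : EE n) : |(br x)⁻¹ * ⟪a, x⟫| ≤ ‖a‖ := by
  have hb := br_pos x
  rw [abs_mul, abs_of_pos (inv_pos.2 hb), inv_mul_le_iff₀ hb]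
  have h1 := abs_real_inner_le_norm a x
  have h2 := norm_le_br x
  have h3 : ‖a‖ * ‖x‖ ≤ ‖a‖ * br x := by gcongr
  linarith

/-- the test function `F cut² ⟨x⟩⁻⁷` -/
noncomputable def hh (F : EE n → ℝ) (R : ℝ) (y : EE n) : ℝ := F y * (cut R y ^ 2 * (br y)⁻¹ ^ 7)

theorem contDiff_kb (R : ℝ) (m : ℕ) :
    ContDiff ℝ ∞ fun y : EE n => cut R y ^ 2 * (br y)⁻¹ ^ m :=
  ((contDiff_cut' R).pow 2).mul (contDiff_ibr.pow m)

theorem contDiff_hh {F : EE n → ℝ} (hF : ContDiff ℝ 1 F) (R : ℝ) : ContDiff ℝ 1 (hh F R) :=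
  hF.mul (contDiff_infty.1 (contDiff_kb R 7) 1)

theorem cs_of {f : EE n → ℝ} {R : ℝ} (h : ∀ x, 2 * R ≤ ‖x‖ → f x = 0) : HasCompactSupport f :=
  HasCompactSupport.intro (isCompact_closedBall (0 : EE n) (2 * R)) fun x hx =>
    h x (by simpa using (not_le.1 (by simpa using hx)).le)

theorem grad_hh {F : EE n → ℝ} (hF : ContDiff ℝ 1 F) (R : ℝ) (x : EE n) :
    ∇ (hh F R) x = (cut R x ^ 2 * (br x)⁻¹ ^ 7) • ∇ F x +
      (2 * cut R x * F x * (br x)⁻¹ ^ 7) • ∇ (cut R) x -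
      (7 * F x * cut R x ^ 2 * (br x)⁻¹ ^ 9) • x := by
  ext i
  simp only [PiLp.sub_apply, PiLp.add_apply, PiLp.smul_apply, smul_eq_mul, grad_apply]
  have := pdv_mul (f := F) (g := fun y : EE n => cut R y ^ 2 * (br y)⁻¹ ^ (6 + 1)) (x := x)
    (hF.differentiable (by simp) x) ((contDiff_kb R 7).differentiable (by simp) x) i
  rw [pdv_kb R 6 i x] at this
  change pdv i (fun y => F y * (cut R y ^ 2 * (br y)⁻¹ ^ (6 + 1))) x = _
  rw [this]
  push_cast; ring

/-- the integrand of the stress-energy identity -/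
noncomputable def SS (v F : EE 8 → ℝ) (R : ℝ) (x : EE 8) : ℝ :=
  en v x * (⟪∇ (hh F R) x, x⟫ + (8 : ℕ) * hh F R x) - ⟪∇ v x, ∇ (hh F R) x⟫ * ⟪∇ v x, x⟫ -
    hh F R x * ‖∇ v x‖ ^ 2

theorem SS_eq (v : EE 8 → ℝ) {F : EE 8 → ℝ} (hF : ContDiff ℝ 1 F) (R : ℝ) (x : EE 8) :
    SS v F R x = en v x * ((cut R x ^ 2 * (br x)⁻¹ ^ 7 * ⟪∇ F x, x⟫ +
          2 * cut R x * F x * (br x)⁻¹ ^ 7 * ⟪∇ (cut R) x, x⟫ -
          7 * F x * cut R x ^ 2 * (br x)⁻¹ ^ 9 * ‖x‖ ^ 2) +
          8 * (F x * (cut R x ^ 2 * (br x)⁻¹ ^ 7))) -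
        (cut R x ^ 2 * (br x)⁻¹ ^ 7 * ⟪∇ v x, ∇ F x⟫ +
          2 * cut R x * F x * (br x)⁻¹ ^ 7 * ⟪∇ v x, ∇ (cut R) x⟫ -
          7 * F x * cut R x ^ 2 * (br x)⁻¹ ^ 9 * ⟪∇ v x, x⟫) * ⟪∇ v x, x⟫ -
        F x * (cut R x ^ 2 * (br x)⁻¹ ^ 7) * ‖∇ v x‖ ^ 2 := by
  rw [SS, grad_hh hF]
  simp only [inner_sub_left, inner_add_left, inner_sub_right, inner_add_right,
    real_inner_smul_left, real_inner_smul_right, real_inner_self_eq_norm_sq, hh, Nat.cast_ofNat]

theorem cut_scale {C0 R : ℝ} (hC0 : 0 ≤ C0) (hR : 0 < R) {x : EE n} {κ : ℝ} (hκ : 0 ≤ κ)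
    (h1 : κ ^ 2 ≤ C0 / R ^ 2) (h2 : ‖x‖ < R → κ ^ 2 = 0) :
    (br x)⁻¹ ^ 5 * κ ^ 2 ≤ C0 * R⁻¹ ^ 7 ∧ (br x)⁻¹ ^ 6 * κ ≤ (1 + C0) * R⁻¹ ^ 7 := by
  have hb := br_pos x
  have hρ : 0 < R⁻¹ := inv_pos.2 hR
  rcases lt_or_ge ‖x‖ R with hx | hx
  · have h3 := h2 hx
    have h4 : κ = 0 := by simpa using h3
    rw [h4]; constructor <;> simp only [ne_eq, OfNat.ofNat_ne_zero, not_false_eq_true, zero_pow,
      mul_zero] <;> positivity
  · have hu : (br x)⁻¹ ≤ R⁻¹ := inv_anti₀ hR (hx.trans (norm_le_br x))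
    have h3 : κ ^ 2 ≤ C0 * R⁻¹ ^ 2 := by rwa [inv_pow, ← div_eq_mul_inv]
    have h4 : κ ≤ (1 + C0) * R⁻¹ := by
      refine (pow_le_pow_iff_left₀ hκ (by positivity) two_ne_zero).1 (h3.trans ?_)
      rw [mul_pow]
      gcongr
      nlinarith
    constructor
    · calc _ ≤ R⁻¹ ^ 5 * (C0 * R⁻¹ ^ 2) := by gcongr
        _ = _ := by ring
    · calc _ ≤ R⁻¹ ^ 6 * ((1 + C0) * R⁻¹) := by gcongr
        _ = _ := by ring

end K'

open K' in
theorem kk (hB : Bas) (hS : StressStmt) (hM : MonStmt) : KStmt := by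
  intro v Θ hv hE η hη
  obtain ⟨CM, hCM⟩ := hM v Θ hv hE
  obtain ⟨C0, hC0, hcut⟩ := exists_gsq_cut 8
  obtain ⟨δ, hδ⟩ : ∃ δ : ℝ, δ = 3 / η := ⟨_, rfl⟩
  have hδ0 : 0 ≤ δ := by rw [hδ]; positivity
  have hεδ : η / 3 * δ = 1 := by rw [hδ]; field_simp
  obtain ⟨C1, hC1⟩ : ∃ C1 : ℝ, C1 = 70 + 25 / 2 * δ := ⟨_, rfl⟩
  obtain ⟨C2, hC2⟩ : ∃ C2 : ℝ, C2 = 4 * C0 * δ + 40 * (1 + C0) := ⟨_, rfl⟩
  have hC10 : 0 ≤ C1 := by rw [hC1]; positivity
  have hC20 : 0 ≤ C2 := by rw [hC2]; positivity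
  refine ⟨C1 * CM + C2 * (2 ^ 7 * Θ), fun R hR F G hF hF1 hG hFG => ?_⟩
  have hR0 : 0 < R := by linarith
  have hv1 : ContDiff ℝ 1 v := contDiff_infty.1 hv.sm 1
  have cv := St.continuous_grad hv1
  have ch := St.continuous_grad (contDiff_hh hF R)
  have ch0 := (contDiff_hh hF R).continuous
  have ce := cont_en hv
  have cp := cont_psi hv
  have ct := hv.continuous_tt
  have cb : Continuous (br : EE 8 → ℝ) := contDiff_br.continuous
  have cz := (contDiff_zeta (n := 8) R).continuous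
  have hI0 : ∀ x : EE 8, 2 * R ≤ ‖x‖ → gin F (zeta R) x * psi v x ^ 2 = 0 := fun x hx => by
    rw [gin_zeta, cut_zero hR0 hx]; simp
  have hS0 : ∀ x : EE 8, 2 * R ≤ ‖x‖ → SS v F R x = 0 := fun x hx => by
    rw [SS_eq v hF, cut_zero hR0 hx]; simp
  have iI : Integrable fun x => gin F (zeta R) x * psi v x ^ 2 :=
    ((cont_gin hF (contDiff_infty.1 (contDiff_zeta R) 1)).mul (cp.pow 2)).integrable_of_hasCompactSupport
      (cs_of hI0)
  have iS : Integrable (SS v F R) :=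
    Continuous.integrable_of_hasCompactSupport (by unfold SS; fun_prop) (cs_of hS0)
  have hSint : ∫ x, SS v F R x = 0 :=
    stress_rad hS hv (contDiff_hh hF R) (cs_of (R := R) fun x hx => by
      rw [hh, cut_zero hR0 hx]; simp)
  have iG : Integrable fun x => G x * zeta R x * psi v x ^ 2 :=
    Continuous.integrable_of_hasCompactSupport (by fun_prop) (cs_zeta hR0).mul_left.mul_right
  have cM : Continuous fun x : EE 8 =>
      en v x / br x ^ 9 + PP v x / br x ^ 7 + ⟪∇ v x, x⟫ ^ 2 / br x ^ 9 := by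
    have hb : ∀ (m : ℕ) (x : EE 8), br x ^ m ≠ 0 := fun m x => (pow_pos (br_pos x) m).ne'
    have cP : Continuous (PP v) := by unfold PP; fun_prop
    exact ((ce.div (cb.pow 9) (hb 9)).add (cP.div (cb.pow 7) (hb 7))).add
      (Continuous.div (by fun_prop) (cb.pow 9) (hb 9))
  have iM := intOn (A := ball (0 : EE 8) (2 * R)) cM Subset.rfl
  have iE := intOn (A := ball (0 : EE 8) (2 * R)) ce Subset.rfl
  have iB : IntegrableOn (fun x : EE 8 =>
      C1 * (en v x / br x ^ 9 + PP v x / br x ^ 7 + ⟪∇ v x, x⟫ ^ 2 / br x ^ 9) +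
        C2 * R⁻¹ ^ 7 * en v x) (ball 0 (2 * R)) := (iM.const_mul _).add (iE.const_mul _)
  have key : ∀ x : EE 8, ‖gin F (zeta R) x * psi v x ^ 2 + 10 * SS v F R x‖ ≤
      η * (G x * zeta R x * psi v x ^ 2) + (ball (0 : EE 8) (2 * R)).indicator (fun x =>
        C1 * (en v x / br x ^ 9 + PP v x / br x ^ 7 + ⟪∇ v x, x⟫ ^ 2 / br x ^ 9) +
          C2 * R⁻¹ ^ 7 * en v x) x := by
    intro x
    have hG0 : 0 ≤ G x := (gsq_nonneg F x).trans (hFG x)
    by_cases hx : x ∈ ball (0 : EE 8) (2 * R)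
    · have hb := br_pos x
      have hN : (br x)⁻¹ ^ 2 * ‖x‖ ^ 2 = 1 - (br x)⁻¹ ^ 2 := by
        have := br_sq x
        field_simp
        linarith
      have hp2 : psi v x ^ 2 = 2 * (en v x + PP v x) := by rw [en_eq hv, PP]; ring
      have ho : ‖∇ v x‖ ^ 2 = en v x - PP v x := by have := en_sub hv x; linarith
      have hP0 := hB.PP_nonneg hv x
      have hP4 : 4 * PP v x ≤ psi v x ^ 2 := by
        have := tt_le_one v x
        rw [PP]; nlinarith [sq_nonneg (psi v x)]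
      obtain ⟨c1, -, c3⟩ := hcut R hR0 x
      rw [gsq_eq] at c1 c3
      obtain ⟨d1, d2⟩ := cut_scale hC0 hR0 (norm_nonneg _) c1 c3
      have hg := hFG x
      rw [gsq_eq] at hg
      have := pw (ε := η / 3) (by positivity) hδ0 hεδ (inv_pos.2 hb).le (cut_nonneg R x)
        (cut_le_one R x) (hF1 x) hg (norm_nonneg _) hP0 hP4 (psi_sq_le v x)
        (o := ‖∇ v x‖) (by linarith) (by linarith) (norm_nonneg _) (norm_nonneg _)
        (abs_rad (∇ F x) x) (abs_rad (∇ (cut R) x) x) (abs_rad (∇ v x) x)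
        (abs_real_inner_le_norm _ _) (abs_real_inner_le_norm _ _) (abs_real_inner_le_norm _ _) d1 d2
      rw [indicator_of_mem hx, Real.norm_eq_abs, gin_zeta, SS_eq v hF, idn hp2 ho hN]
      refine this.trans (le_of_eq ?_)
      rw [hC1, hC2, zeta]
      simp only [div_eq_mul_inv, ← inv_pow]
      ring
    · have hx' : 2 * R ≤ ‖x‖ := by simpa using hx
      rw [indicator_of_notMem hx, hI0 x hx', hS0 x hx']
      have := zeta_nonneg R x
      simp only [mul_zero, add_zero, norm_zero]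
      positivity
  have e1 : ∫ x, gin F (zeta R) x * psi v x ^ 2 =
      ∫ x, (gin F (zeta R) x * psi v x ^ 2 + 10 * SS v F R x) := by
    rw [integral_add iI (iS.const_mul _), integral_const_mul, hSint]; simp
  have iB' := (integrable_indicator_iff measurableSet_ball).2 iB
  have e2 := norm_integral_le_of_norm_le ((iG.const_mul η).add iB') (Eventually.of_forall key)
  rw [← e1, Real.norm_eq_abs] at e2
  refine e2.trans ?_
  simp only [Pi.add_apply]
  rw [integral_add (iG.const_mul η) iB', integral_const_mul, integral_indicator measurableSet_ball,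
    integral_add (iM.const_mul _) (iE.const_mul _), integral_const_mul, integral_const_mul]
  have f1 := hCM (2 * R) (by linarith)
  have f2 := hE 0 (2 * R) (by linarith)
  have f3 : C2 * R⁻¹ ^ 7 * (Θ * (2 * R) ^ 7) = C2 * (2 ^ 7 * Θ) := by field_simp
  have f4 := mul_le_mul_of_nonneg_left f1 hC10
  have f5 := mul_le_mul_of_nonneg_left f2 (show 0 ≤ C2 * R⁻¹ ^ 7 by positivity)
  linarith

end Crest.Agent.N067.X7
end

-- ▼ part N067/X7/Sig
section

/-! # Row 67, X7: Sig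
s = sig u: smooth, 0 < s (Sol.pdv_dd + MonoLast), s <= |grad d| <= 1, Lm s = -q s (DEqStmt).
(a) F = s - s^2/4: -Lm F = (1 - s/2) q s + gsq s / 2, gsq F <= gsq s =: G.  WeakStmt + KStmt (eta = 1/4):
 int (q s + gsq s) zeta psi^2 <= C uniformly in R.
(b) F = t s^2: Lm F = s^2 (2q(1-t) - 2 hsq) + t(-2 q s^2 + 2 gsq s) + 4 s gin t s; gsq t <= 4 hsq (gsq_gsq_le, |grad d| <= 1);
 gsq F <= 8 s^2 hsq + 8 gsq s =: G; so int hsq s^2 zeta psi^2 <= C.
(c) f = curv u s * psi^2 >= 0 continuous with int_{ball R} f br^-5 <= C for all R: f br^-5 is integrable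
 (integrableOn_univ via integrableOn_iUnion / monotone convergence); r^-5 int_{ball r} f <= r^-5 int_{ball r1} f + 32 int_{|x|>=r1} f br^-5
 (br <= 2r on ball r, r >= 1) -> small.
-/

set_option autoImplicit false

open MeasureTheory Laplacian InnerProductSpace Topology Filter Set Metric
open scoped RealInnerProductSpace ContDiff Gradient

namespace Crest.Agent.N067.X7

open Crest.Agent.R077

namespace Sig'

variable {n : ℕ} {v f g : EE n → ℝ} {x : EE n}

theorem Lm_add (hf : ContDiffAt ℝ 2 f x) (hg : ContDiffAt ℝ 2 g x) (c : ℝ) :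
    Lm v (fun y => f y + c * g y) x = Lm v f x + c * Lm v g x := by
  have h1 := hf.differentiableAt (by norm_num)
  have h2 := hg.differentiableAt (by norm_num)
  simp only [Lm, ← gin_eq]
  rw [lap_add' hf (contDiffAt_const.mul hg), lap_const_mul hg,
    gin_add_right h1 (h2.const_mul c), gin_const_mul_right h2]
  ring

theorem Lm_mul (hf : ContDiffAt ℝ 2 f x) (hg : ContDiffAt ℝ 2 g x) :
    Lm v (fun y => f y * g y) x = Lm v f x * g x + 2 * gin f g x + f x * Lm v g x := by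
  simp only [Lm, ← gin_eq]
  rw [lap_mul' hf hg, gin_mul_right (hf.differentiableAt (by norm_num))
    (hg.differentiableAt (by norm_num))]
  ring

theorem cont_Lm (hB : Bas) (h : Sol v) (hf : ContDiff ℝ ∞ f) : Continuous (Lm v f) := by
  have h1 : Continuous (Δ f) := continuous_iff_continuousAt.2 fun x =>
    (contDiffAt_lap (m := 0) (contDiff_infty.1 hf 2).contDiffAt (by norm_num)).continuousAt
  have h2 := cont_gin (contDiff_infty.1 (hB.dd_smooth h) 1) (contDiff_infty.1 hf 1)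
  have h3 := h.sm.continuous
  have e : Lm v f = fun x => (Δ f) x - 2 * Real.sqrt 2 * v x * gin (dd v) f x :=
    funext fun x => by rw [Lm, gin_eq]
  rw [e]; fun_prop

theorem tt_eq (v : EE n → ℝ) : tt v = fun x => 1 - gsq (dd v) x :=
  funext fun x => by rw [tt, gsq_eq]

theorem sm_tt (hB : Bas) (h : Sol v) : ContDiff ℝ ∞ (tt v) := by
  rw [tt_eq]
  exact contDiff_const.sub (ContDiff.sum fun i _ =>
    (St.contDiff_pdv_top (hB.dd_smooth h) i).pow 2)

theorem gsq_tt (hB : Bas) (h : Sol v) (x : EE n) : gsq (tt v) x ≤ 4 * hsq (dd v) x := by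
  have h1 : gsq (tt v) x = gsq (gsq (dd v)) x := by
    rw [tt_eq]; simp only [gsq.eq_1 _ x, pdv_const_sub, neg_sq]
  have h2 := gsq_gsq_le (contDiff_infty.1 (hB.dd_smooth h) 2).contDiffAt (x := x)
  have h3 := hB.tt_nonneg h x
  rw [tt_eq] at h3
  nlinarith [hsq_nonneg (dd v) x]

/-- the test function `s - s²/4 + t s²/40` -/
noncomputable def FF (v s : EE n → ℝ) (y : EE n) : ℝ :=
  (s y + (-1 / 4) * (s y * s y)) + 1 / 40 * (tt v y * (s y * s y))

theorem test (hB : Bas) (h : Sol v) {s : EE n → ℝ} (hs : ContDiff ℝ ∞ s)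
    (h0 : ∀ x, 0 ≤ s x ∧ s x ≤ 1) (hL : ∀ x, Lm v s x = -qq v x * s x) :
    ContDiff ℝ ∞ (FF v s) ∧ ∀ x, |FF v s x| ≤ 1 ∧
      gsq (FF v s) x ≤ 3 * ((hsq (dd v) x + qq v x) * s x ^ 2 + gsq s x) ∧
      (hsq (dd v) x + qq v x) * s x ^ 2 + gsq s x ≤ -40 * Lm v (FF v s) x := by
  have ht := sm_tt hB h
  refine ⟨(hs.add (contDiff_const.mul (hs.mul hs))).add (contDiff_const.mul (ht.mul (hs.mul hs))),
    fun x => ?_⟩
  have s2 : ContDiffAt ℝ 2 s x := (contDiff_infty.1 hs 2).contDiffAt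
  have t2 : ContDiffAt ℝ 2 (tt v) x := (contDiff_infty.1 ht 2).contDiffAt
  have s1 := s2.differentiableAt (by norm_num)
  have t1 := t2.differentiableAt (by norm_num)
  obtain ⟨a0, a1⟩ := h0 x
  have b0 := hB.tt_nonneg h x
  have b1 := tt_le_one v x
  have q0 := hB.qq_nonneg h x
  have g0 := gsq_nonneg s x
  have k0 := hsq_nonneg (dd v) x
  have gt := gsq_tt hB h x
  have ss : s x ^ 2 ≤ s x := by nlinarith
  refine ⟨?_, ?_, ?_⟩
  · have := mul_nonneg b0 (sq_nonneg (s x))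
    have := mul_le_mul_of_nonneg_right b1 (sq_nonneg (s x))
    rw [FF, abs_le]
    constructor <;> nlinarith
  · have e : ∀ i, pdv i (FF v s) x =
        (1 - s x / 2 + tt v x * s x / 20) * pdv i s x + s x ^ 2 / 40 * pdv i (tt v) x := fun i => by
      unfold FF
      have s3 := s1.fun_mul s1
      rw [pdv_add (s1.fun_add (s3.const_mul _)) ((t1.fun_mul s3).const_mul _),
        pdv_add s1 (s3.const_mul _), pdv_const_mul s3,
        pdv_const_mul (t1.fun_mul s3), pdv_mul t1 s3, pdv_mul s1 s1]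
      ring
    have h1 : gsq (FF v s) x ≤ 2 * (1 - s x / 2 + tt v x * s x / 20) ^ 2 * gsq s x +
        2 * (s x ^ 2 / 40) ^ 2 * gsq (tt v) x := by
      simp only [gsq, e, Finset.mul_sum, ← Finset.sum_add_distrib]
      exact Finset.sum_le_sum fun i _ => by
        nlinarith [sq_nonneg ((1 - s x / 2 + tt v x * s x / 20) * pdv i s x -
          s x ^ 2 / 40 * pdv i (tt v) x)]
    have h2 : (1 - s x / 2 + tt v x * s x / 20) ^ 2 ≤ 1 := by
      have := mul_nonneg b0 a0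
      have := mul_le_mul_of_nonneg_right b1 a0
      exact pow_le_one₀ (by linarith) (by linarith)
    have h3 : (s x ^ 2 / 40) ^ 2 ≤ s x ^ 2 / 8 := by nlinarith [sq_nonneg (s x)]
    have h4 := mul_le_mul h3 gt (gsq_nonneg _ _) (by positivity)
    have h5 := mul_le_mul_of_nonneg_right h2 g0
    have h6 := mul_nonneg q0 (sq_nonneg (s x))
    have h7 := mul_nonneg k0 (sq_nonneg (s x))
    nlinarith
  · have e1 : Lm v (fun y => s y * s y) x = -2 * qq v x * s x ^ 2 + 2 * gsq s x := by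
      rw [Lm_mul s2 s2, hL, gin_self]; ring
    have e2 := ((hB.deq n v h).2 x).2.2
    have e3 : Lm v (FF v s) x = -qq v x * s x + (-1 / 4) * (-2 * qq v x * s x ^ 2 + 2 * gsq s x) +
        1 / 40 * (2 * (qq v x * (1 - tt v x) - hsq (dd v) x) * s x ^ 2 +
          4 * (s x * gin (tt v) s x) + tt v x * (-2 * qq v x * s x ^ 2 + 2 * gsq s x)) := by
      unfold FF
      rw [Lm_add (s2.add (contDiffAt_const.mul (s2.mul s2))) (t2.mul (s2.mul s2)),
        Lm_add s2 (s2.mul s2), Lm_mul t2 (s2.mul s2), e1, hL, gin_mul_right s1 s1, ← e2]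
      ring
    have h1 : 4 * (s x * gin (tt v) s x) ≤ hsq (dd v) x * s x ^ 2 + 16 * gsq s x := by
      have h2 := (gin_sq_le (tt v) s x).trans (mul_le_mul_of_nonneg_right gt g0)
      have h3 := mul_le_mul_of_nonneg_left h2 (sq_nonneg (s x))
      refine le_of_sq_le_sq ?_ (by positivity)
      nlinarith [sq_nonneg (hsq (dd v) x * s x ^ 2 - 16 * gsq s x)]
    have h2 := mul_le_mul_of_nonneg_left ss q0
    have h3 := mul_nonneg b0 (mul_nonneg q0 (sq_nonneg (s x)))
    have h4 := mul_le_mul_of_nonneg_right b1 g0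
    have h5 := mul_nonneg q0 (sq_nonneg (s x))
    rw [e3]
    nlinarith

/-- a bounded weighted mass gives `o(r⁵)` -/
theorem small (h : Sol v) (hf : Continuous f) (h0 : ∀ x, 0 ≤ f x) {C : ℝ}
    (hC : ∀ R, 1 ≤ R → mu v (ball 0 R) (fun x => f x / br x ^ 5) ≤ C) {ε : ℝ} (hε : 0 < ε) :
    ∃ r1 : ℝ, ∀ r, r1 ≤ r → mu v (ball 0 r) f ≤ ε ^ 2 * r ^ 5 := by
  have hg : Continuous fun x => f x / br x ^ 5 :=
    hf.div (contDiff_br.continuous.pow 5) fun x => (pow_pos (br_pos x) 5).ne'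
  set S := (fun R => mu v (ball 0 R) fun x => f x / br x ^ 5) '' Ici 1 with hS
  have hb : BddAbove S := ⟨C, by rintro _ ⟨R, hR, rfl⟩; exact hC R hR⟩
  obtain ⟨_, ⟨R, hR, rfl⟩, h1⟩ := exists_lt_of_lt_csSup (s := S) ⟨_, 1, mem_Ici.2 le_rfl, rfl⟩
    (sub_lt_self (sSup S) (by positivity : 0 < ε ^ 2 / 64))
  refine ⟨max R (2 * mu v (ball 0 R) f / ε ^ 2), fun r hr => ?_⟩
  have hRr : R ≤ r := (le_max_left _ _).trans hr
  have hr1 : 1 ≤ r := le_trans hR hRr
  have h2 := le_csSup hb ⟨r, hr1, rfl⟩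
  have h3 : ∀ {k : EE n → ℝ}, Continuous k →
      mu v (ball 0 r \ ball 0 R) k = mu v (ball 0 r) k - mu v (ball 0 R) k := fun hk =>
    setIntegral_sdiff measurableSet_ball (intOn_mu h hk Subset.rfl) (ball_subset_ball hRr)
  have h4 : mu v (ball 0 r \ ball 0 R) f ≤
      mu v (ball 0 r \ ball 0 R) fun x => (2 * r) ^ 5 * (f x / br x ^ 5) :=
    mu_mono_fun h hf (hg.const_mul _) (measurableSet_ball.diff measurableSet_ball)
      sdiff_subset fun x hx => by
        have h5 : br x ≤ 2 * r := by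
          have := br_le x
          have := mem_ball_zero_iff.1 hx.1
          linarith
        have h6 := br_pos x
        rw [← mul_div_assoc, le_div_iff₀ (by positivity), mul_comm]
        exact mul_le_mul_of_nonneg_right (pow_le_pow_left₀ h6.le h5 5) (h0 x)
  have h5 : (mu v (ball 0 r \ ball 0 R) fun x => (2 * r) ^ 5 * (f x / br x ^ 5)) =
      (2 * r) ^ 5 * mu v (ball 0 r \ ball 0 R) fun x => f x / br x ^ 5 := by
    simp only [mu, mul_assoc, integral_const_mul]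
  rw [h5, h3 hf, h3 hg] at h4
  have h6 := (le_max_right _ _).trans hr
  rw [div_le_iff₀ (by positivity)] at h6
  have h7 := mul_le_mul_of_nonneg_right (le_self_pow₀ hr1 (by norm_num : 5 ≠ 0)) (sq_nonneg ε)
  have h8 := mul_le_mul_of_nonneg_left (show (mu v (ball 0 r) fun x => f x / br x ^ 5) -
    (mu v (ball 0 R) fun x => f x / br x ^ 5) ≤ ε ^ 2 / 64 by linarith)
    (by positivity : 0 ≤ (2 * r) ^ 5)
  linarith

end Sig'

open Sig' in
theorem sig_core (hB : Bas) (hW : WeakStmt) (hK : KStmt) {u : EE 8 → ℝ} {Θ : ℝ} (h : Sol u)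
    (hm : MonoLast (n := 7) u) (hE : EnB u Θ) :
    (ContDiff ℝ ∞ (sig u) ∧ (∀ x, 0 < sig u x ∧ sig u x ≤ 1) ∧ ∀ x, Lm u (sig u) x ≤ 0) ∧
    ∀ ε : ℝ, 0 < ε → ∃ r1 : ℝ, ∀ r, r1 ≤ r → mu u (ball 0 r) (curv u (sig u)) ≤ ε ^ 2 * r ^ 5 := by
  have hs : ContDiff ℝ ∞ (sig u) := St.contDiff_pdv_top (hB.dd_smooth h) _
  have h0 : ∀ x, 0 < sig u x ∧ sig u x ≤ 1 := fun x => by
    constructor
    · rw [sig, h.pdv_dd]
      exact mul_pos (div_pos (by positivity) (h.psi_pos x)) (hm x)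
    · rw [sig, ← grad_apply]
      exact ((le_abs_self _).trans (PiLp.norm_apply_le (∇ (dd u) x) _)).trans (hB.norm_grad_le h x)
  have hL : ∀ x, Lm u (sig u) x = -qq u x * sig u x := fun x => ((hB.deq 8 u h).2 x).2.1 _
  refine ⟨⟨hs, h0, fun x => ?_⟩, fun ε hε => ?_⟩
  · rw [hL, neg_mul, neg_nonpos]; exact mul_nonneg (hB.qq_nonneg h x) (h0 x).1.le
  obtain ⟨hF, hF'⟩ := test hB h hs (fun x => ⟨(h0 x).1.le, (h0 x).2⟩) hL
  have hc : Continuous (curv u (sig u)) :=
    (((cont_hsq (hB.dd_smooth h)).add h.continuous_qq).mul (hs.continuous.pow 2)).add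
      (cont_gsq (contDiff_infty.1 hs 1))
  have hn : ∀ x, 0 ≤ curv u (sig u) x := fun x => add_nonneg (mul_nonneg
    (add_nonneg (hsq_nonneg _ _) (hB.qq_nonneg h x)) (sq_nonneg _)) (gsq_nonneg _ _)
  obtain ⟨C, hC⟩ := hK u Θ h hE (1 / 240) (by norm_num)
  refine small h hc hn (C := 80 * C) (fun R hR => ?_) hε
  have hR0 : 0 < R := by linarith
  have hi : ∀ {k : EE 8 → ℝ}, Continuous k → Integrable fun x => k x * zeta R x * psi u x ^ 2 :=
    fun hk => ((hk.mul (contDiff_zeta R).continuous).mul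
      ((cont_psi h).pow 2)).integrable_of_hasCompactSupport ((cs_zeta hR0).mul_left.mul_right)
  have h1 := hC R hR _ (fun x => 3 * curv u (sig u) x) (contDiff_infty.1 hF 1)
    (fun x => (hF' x).1) (continuous_const.mul hc) fun x => (hF' x).2.1
  have h2 := hW 8 u _ (zeta R) h (contDiff_infty.1 hF 2) (contDiff_infty.1 (contDiff_zeta R) 1)
    (cs_zeta hR0)
  have h3 : ∫ x, curv u (sig u) x * zeta R x * psi u x ^ 2 ≤
      ∫ x, -40 * Lm u (FF u (sig u)) x * zeta R x * psi u x ^ 2 :=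
    integral_mono (hi hc) (hi (continuous_const.mul (cont_Lm hB h hF))) fun x =>
      mul_le_mul_of_nonneg_right (mul_le_mul_of_nonneg_right (hF' x).2.2 (zeta_nonneg R x))
        (sq_nonneg _)
  have h4 : mu u (ball 0 R) (fun x => curv u (sig u) x / br x ^ 5) ≤
      ∫ x, curv u (sig u) x * zeta R x * psi u x ^ 2 := by
    refine le_of_eq_of_le (setIntegral_congr_fun measurableSet_ball fun x hx => ?_)
      (setIntegral_le_integral (hi hc) (Eventually.of_forall fun x =>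
        mul_nonneg (mul_nonneg (hn x) (zeta_nonneg R x)) (sq_nonneg _)))
    simp only [zeta, cut_one hR0 (mem_ball_zero_iff.1 hx).le]
    ring
  simp only [mul_assoc, integral_const_mul] at h1 h2 h3 h4
  linarith [le_abs_self (∫ x, gin (FF u (sig u)) (zeta R) x * psi u x ^ 2)]


end Crest.Agent.N067.X7
end

-- ▼ part N067/K/Area
section

/-!
# Row 67, block K (helper39): the area estimate `AreaStmt`
-/

set_option autoImplicit false

open MeasureTheory Topology Filter Set Metric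
open scoped ENNReal

namespace Crest.Agent.N067

open Crest.Agent.R077

noncomputable section

variable {n : ℕ}

theorem rh_lt_sub (c : EE n) (r0 s : ℝ) : {x | rh Finset.univ c r0 x < s} ⊆ ball c s :=
  fun x hx => by
    rw [mem_ball, dist_eq_norm]; exact (norm_le_rh c r0 x).trans_lt hx

/-- growth of exponent `e` around `c` from the radius `a` on -/
def Gro (G : EE n → ℝ) (c : EE n) (a e : ℝ) : Prop :=
  ∃ A : ℝ, 0 ≤ A ∧ ∀ s, a ≤ s →
    ∫⁻ x in ball c s, ENNReal.ofReal (G x) ≤ ENNReal.ofReal (A * s ^ e)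

theorem Gro.mono {G : EE n → ℝ} {c : EE n} {a e e' : ℝ} (h : Gro G c a e) (ha : 1 ≤ a)
    (he : e ≤ e') : Gro G c a e' := by
  obtain ⟨A, hA, h⟩ := h
  refine ⟨A, hA, fun s hs => (h s hs).trans (ENNReal.ofReal_le_ofReal ?_)⟩
  exact mul_le_mul_of_nonneg_left (Real.rpow_le_rpow_of_exponent_le (ha.trans hs) he) hA

theorem Gro.down {G : EE n → ℝ} {c : EE n} {a e r : ℝ} (h : Gro G c a e) (ha : 1 ≤ a)
    (he : 0 ≤ e) (hr : 1 ≤ r) : Gro G c r e := by
  obtain ⟨A, hA, h⟩ := h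
  have h1 : 1 ≤ a ^ e := Real.one_le_rpow ha he
  refine ⟨A * a ^ e, by positivity, fun s hs => ?_⟩
  have h2 : 1 ≤ s ^ e := Real.one_le_rpow (hr.trans hs) he
  rcases le_total a s with h3 | h3
  · refine (h s h3).trans (ENNReal.ofReal_le_ofReal ?_)
    gcongr
    exact le_mul_of_one_le_right hA h1
  · refine (lintegral_mono_set (ball_subset_ball h3)).trans
      ((h a le_rfl).trans (ENNReal.ofReal_le_ofReal ?_))
    exact le_mul_of_one_le_right (by positivity) h2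

/-- the outer term of the master inequality is small for a large cut-off radius -/
theorem outer_small {G : EE n → ℝ} (c : EE n) (hG : ∀ x, 0 ≤ G x) {γ r0 a e ε : ℝ} (hγ : 0 < γ)
    (hγ2 : γ < 2) (hr : 1 ≤ r0) (ha : 1 ≤ a) (he : e < 2 * γ + 2) (h : Gro G c a e) (hε : 0 < ε)
    (b : ℝ) : ∃ R, b ≤ R ∧ ∫⁻ x, ENNReal.ofReal
      (R ^ (-2 : ℝ) * (G x * rh Finset.univ c r0 x ^ (-(2 * γ)) * Om c R x)) ≤
        ENNReal.ofReal ε := by
  set e3 := max e (2 * γ + 1) with he3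
  have h1 : 2 * γ + 1 ≤ e3 := le_max_right _ _
  have h2 : e3 < 2 * γ + 2 := max_lt he (by linarith)
  obtain ⟨A, hA, h⟩ := (h.mono ha (le_max_left e (2 * γ + 1))).down ha (by linarith) hr
  have hO := cOm_pos (e := e3) (by linarith)
  have hO1 : 1 ≤ cOm e3 := by
    have := cOut_pos (e := e3) (α := 20) (by linarith)
    unfold cOm; linarith
  have hI := cIn_pos (e := e3) (α := 2 * γ) (by linarith)
  obtain ⟨R, hR, hR2⟩ := exists_rpow_le (D := (cIn e3 (2 * γ) + 1) * (cOm e3 * A))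
    (η := e3 - 2 * γ - 2) (by linarith) hε (max b r0)
  have hr0 : 0 < r0 := one_pos.trans_le hr
  have hR1 : r0 ≤ R := (le_max_right _ _).trans hR
  have hR0 : 0 < R := hr0.trans_le hR1
  refine ⟨R, (le_max_left _ _).trans hR, ?_⟩
  have hm := measurable_rh Finset.univ c r0
  set F : EE n → ℝ≥0∞ := fun x => ENNReal.ofReal (G x) * ENNReal.ofReal (Om c R x) with hF
  have a1 := lay_all (μ := volume) (F := F) hm (a := r0) (S := R) (α := 2 * γ)
    (A := cOm e3 * A) (e := e3) hr0 hR0 (by positivity) (by positivity) (by linarith)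
    (fun s hs _ => by
      have hs0 : 0 < s := hr0.trans_le hs
      calc _ ≤ ∫⁻ x in ball c s, F x := lintegral_mono_set (rh_lt_sub c r0 s)
        _ ≤ ∫⁻ x in ball c s, ENNReal.ofReal (G x) := lintegral_mono fun x =>
            mul_le_of_le_one_right' (ENNReal.ofReal_le_one.2 (Om_le_one c hR0 x))
        _ ≤ _ := (h s hs).trans (ENNReal.ofReal_le_ofReal (by
            gcongr; exact le_mul_of_one_le_left hA hO1)))
    (lay_Om (μ := volume) (F := fun x => ENNReal.ofReal (G x)) c hR0 hA (by linarith)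
      fun s hs => h s (hR1.trans hs))
  have e0 : {x | r0 ≤ rh Finset.univ c r0 x} = univ := eq_univ_of_forall fun x => le_rh _ _ x
  rw [e0] at a1
  have a5 := lint_const_le (μ := volume) (S := univ) MeasurableSet.univ
    (f := fun x => ENNReal.ofReal
      (R ^ (-2 : ℝ) * (G x * rh Finset.univ c r0 x ^ (-(2 * γ)) * Om c R x)))
    (m := R ^ (-2 : ℝ)) (by positivity) (fun x _ => by
      rw [ENNReal.ofReal_mul (by positivity), ofReal3 (hG x) (Om_pos c hR0 x).le]) a1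
  rw [Measure.restrict_univ] at a5
  refine a5.trans (ENNReal.ofReal_le_ofReal (le_trans (le_of_eq ?_) hR2))
  rw [show e3 - 2 * γ - 2 = (-2 : ℝ) + (e3 - 2 * γ) by ring, Real.rpow_add hR0]; ring

/-- the left-over integrand of the master inequality -/
def lo (W : EE n → ℝ) (γ P f0 : ℝ) (c : EE n) (r0 R : ℝ) (x : EE n) : ℝ≥0∞ :=
  ENNReal.ofReal (min (f0 ^ (-2 : ℝ)) (f0 ^ P * rh Finset.univ c r0 x ^ (-P - 2)) *
    (W x * rh Finset.univ c r0 x ^ (-(2 * γ)) * Om c R x))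

theorem lo_out {W : EE n → ℝ} (c : EE n) (hW : ∀ x, 0 ≤ W x) {γ P f0 r0 R A e a : ℝ} (hγ : 0 < γ)
    (hP : 0 < P) (he : e < P + 2 + 2 * γ) (hA : 0 ≤ A) (hf : 0 < f0) (hR : 0 < R) (ha : 1 ≤ a)
    (h : ∀ s, 1 ≤ s → ∫⁻ x in ball c s, ENNReal.ofReal (W x) ≤ ENNReal.ofReal (A * s ^ e)) :
    ∫⁻ x in {x | a ≤ rh Finset.univ c r0 x}, lo W γ P f0 c r0 R x ≤
      ENNReal.ofReal (f0 ^ P * (cOut e (P + 2 + 2 * γ) * A * a ^ (e - (P + 2 + 2 * γ)))) := by
  have hm := measurable_rh Finset.univ c r0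
  have ha0 : 0 < a := one_pos.trans_le ha
  refine lint_const_le (measurableSet_le measurable_const hm) (by positivity) (fun x hx => ?_)
    (lay_out (μ := volume) (F := fun x => ENNReal.ofReal (W x)) hm ha0 hA (by positivity) he
      fun s hs => (lintegral_mono_set (rh_lt_sub c r0 s)).trans (h s (ha.trans hs)))
  have h3 : 0 < rh Finset.univ c r0 x := ha0.trans_le hx
  have h4 := hW x
  have h5 := Om_pos c hR x
  unfold lo
  rw [← ENNReal.ofReal_mul h4, ← ENNReal.ofReal_mul (by positivity)]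
  refine ENNReal.ofReal_le_ofReal ?_
  calc _ ≤ f0 ^ P * rh Finset.univ c r0 x ^ (-P - 2) *
        (W x * rh Finset.univ c r0 x ^ (-(2 * γ)) * 1) := by
        gcongr
        · exact min_le_right _ _
        · exact Om_le_one c hR x
    _ = _ := by
        rw [show -(P + 2 + 2 * γ) = (-P - 2) + -(2 * γ) by ring, Real.rpow_add h3]; ring

theorem lo_in {W : EE n → ℝ} (c : EE n) (hW : ∀ x, 0 ≤ W x) {γ P f0 r0 R A e : ℝ} (hγ : 0 < γ)
    (he : 2 * γ < e) (hA : 0 ≤ A) (hf : 0 < f0) (hR : 0 < R) (hr : 1 ≤ r0)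
    (h : ∀ s, 1 ≤ s → ∫⁻ x in ball c s, ENNReal.ofReal (W x) ≤ ENNReal.ofReal (A * s ^ e)) :
    ∫⁻ x in {x | r0 ≤ rh Finset.univ c r0 x ∧ rh Finset.univ c r0 x < f0}, lo W γ P f0 c r0 R x ≤
      ENNReal.ofReal (f0 ^ (-2 : ℝ) * (cIn e (2 * γ) * A * f0 ^ (e - 2 * γ))) := by
  have hm := measurable_rh Finset.univ c r0
  have hr0 : 0 < r0 := one_pos.trans_le hr
  refine lint_const_le ((measurableSet_le measurable_const hm).inter
    (measurableSet_lt hm measurable_const)) (by positivity) (fun x hx => ?_)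
    (lay_in (μ := volume) (F := fun x => ENNReal.ofReal (W x)) hm hr0 hf hA (by positivity) he
      fun s hs _ => (lintegral_mono_set (rh_lt_sub c r0 s)).trans (h s (hr.trans hs)))
  have h3 : 0 < rh Finset.univ c r0 x := hr0.trans_le hx.1
  have h4 := hW x
  have h5 := Om_pos c hR x
  unfold lo
  rw [← ENNReal.ofReal_mul h4, ← ENNReal.ofReal_mul (by positivity)]
  refine ENNReal.ofReal_le_ofReal ?_
  calc _ ≤ f0 ^ (-2 : ℝ) * (W x * rh Finset.univ c r0 x ^ (-(2 * γ)) * 1) := by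
        gcongr
        · exact min_le_left _ _
        · exact Om_le_one c hR x
    _ = _ := by ring

theorem lo_all {W : EE n → ℝ} (c : EE n) (hW : ∀ x, 0 ≤ W x) {γ P f0 r0 R A e : ℝ} (hγ : 0 < γ)
    (hP : 0 < P) (he : e < P + 2 + 2 * γ) (hA : 0 ≤ A) (hf : 0 < f0) (hR : 0 < R) (hr : 1 ≤ r0)
    (h : ∀ s, 1 ≤ s → ∫⁻ x in ball c s, ENNReal.ofReal (W x) ≤ ENNReal.ofReal (A * s ^ e)) :
    ∫⁻ x, lo W γ P f0 c r0 R x ≤
      ENNReal.ofReal (f0 ^ P * (cOut e (P + 2 + 2 * γ) * A * r0 ^ (e - (P + 2 + 2 * γ)))) := by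
  have a1 := lo_out (r0 := r0) c hW hγ hP he hA hf hR hr h
  have e0 : {x | r0 ≤ rh Finset.univ c r0 x} = univ := eq_univ_of_forall fun x => le_rh _ _ x
  rwa [e0, Measure.restrict_univ] at a1

theorem le_ofReal_of_forall {x : ℝ≥0∞} {K C M : ℝ}
    (h : ∀ ε : ℝ, 0 < ε → x ≤ ENNReal.ofReal (K * (C * (ε + M)))) :
    x ≤ ENNReal.ofReal (K * (C * M)) := by
  have h1 : Tendsto (fun ε : ℝ => ENNReal.ofReal (K * (C * (ε + M)))) (𝓝[>] 0)
      (𝓝 (ENNReal.ofReal (K * (C * (0 + M))))) :=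
    ((ENNReal.continuous_ofReal.comp (by fun_prop)).tendsto 0).mono_left nhdsWithin_le_nhds
  rw [zero_add] at h1
  exact ge_of_tendsto h1 (eventually_nhdsWithin_of_forall h)

variable {v G J : EE n → ℝ} {γ s P θ b C0 κ1 c C rs f0 : ℝ}

/-- the master inequality with `I = univ` and real bounds of its right side -/
theorem MIData.real (hD : MIData v γ s P θ b C0 κ1 c C rs f0 G J) (hn : 7 ≤ n) (hC : 0 < C)
    (x0 : EE n) {r0 R M1 M2 : ℝ} (hr : rs ≤ r0) (hR : r0 ≤ R) (hf : f0 ≤ R) (h1 : 0 ≤ M1)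
    (h2 : 0 ≤ M2) (hM1 : ∫⁻ x, ENNReal.ofReal (R ^ (-2 : ℝ) *
      (G x * rh Finset.univ x0 r0 x ^ (-(2 * γ)) * Om x0 R x)) ≤ ENNReal.ofReal M1)
    (hM2 : ∫⁻ x, lo (fun x => psi v x ^ b) γ P f0 x0 r0 R x ≤ ENNReal.ofReal M2) :
    ∫⁻ x in ball x0 R, ENNReal.ofReal (G x * rh Finset.univ x0 r0 x ^ (-(2 * γ) - 2) +
      J x * rh Finset.univ x0 r0 x ^ (-(2 * γ))) ≤ ENNReal.ofReal (C * (M1 + M2)) := by
  have t3 := (hD.mi Finset.univ x0 r0 R (by simpa using hn) hr hR hf).trans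
    (mul_le_mul_right (add_le_add hM1 hM2) _)
  rwa [← ENNReal.ofReal_add h1 h2, ← ENNReal.ofReal_mul hC.le] at t3

theorem le_mul_rh {g r0 r1 α : ℝ} {x0 x : EE n} (hg : 0 ≤ g) (hr : 0 < r0) (hα : 0 ≤ α)
    (hx : x ∈ ball x0 r1) : g ≤ (r0 + r1) ^ α * (g * rh Finset.univ x0 r0 x ^ (-α)) := by
  have h1 : 0 < rh Finset.univ x0 r0 x := hr.trans_le (le_rh _ _ x)
  have h2 : rh Finset.univ x0 r0 x ≤ r0 + r1 := by
    have := rh_le Finset.univ x0 hr.le x
    rw [mem_ball, dist_eq_norm] at hx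
    linarith
  calc g = rh Finset.univ x0 r0 x ^ α * (g * rh Finset.univ x0 r0 x ^ (-α)) := by
        rw [Real.rpow_neg h1.le]
        have : 0 < rh Finset.univ x0 r0 x ^ α := by positivity
        field_simp
    _ ≤ _ := by gcongr

/-- the master inequality after `R → ∞` -/
theorem MIData.inf (hD : MIData v γ s P θ b C0 κ1 c C rs f0 G J) (hn : 7 ≤ n) (hγ : 0 < γ)
    (hγ2 : γ < 2) (hC : 0 < C) (hrs : 1 ≤ rs) (x0 : EE n) {r0 r1 a e M : ℝ} (hr : rs ≤ r0)
    (hr1 : 0 < r1) (ha : 1 ≤ a) (he : e < 2 * γ + 2) (h : Gro G x0 a e) (hM0 : 0 ≤ M)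
    (hM : ∀ R, 0 < R → ∫⁻ x, lo (fun x => psi v x ^ b) γ P f0 x0 r0 R x ≤ ENNReal.ofReal M) :
    ∫⁻ x in ball x0 r1, ENNReal.ofReal (G x) ≤
      ENNReal.ofReal ((r0 + r1) ^ (2 * γ + 2) * (C * M)) := by
  have hr0 : 0 < r0 := one_pos.trans_le (hrs.trans hr)
  refine le_ofReal_of_forall fun ε hε => ?_
  obtain ⟨R, hR, hR2⟩ := outer_small x0 hD.nG hγ hγ2 (hrs.trans hr) ha he h hε (max (max r0 f0) r1)
  have hR1 : r0 ≤ R := ((le_max_left _ _).trans (le_max_left _ _)).trans hR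
  have t := hD.real hn hC x0 hr hR1 (((le_max_right _ _).trans (le_max_left _ _)).trans hR) hε.le
    hM0 hR2 (hM R (hr0.trans_le hR1))
  refine lint_const_le measurableSet_ball (by positivity) (fun x hx => ?_)
    ((lintegral_mono_set (ball_subset_ball ((le_max_right _ _).trans hR))).trans t)
  rw [← ENNReal.ofReal_mul (by positivity)]
  refine ENNReal.ofReal_le_ofReal ((le_mul_rh (α := 2 * γ + 2) (hD.nG x) hr0 (by positivity)
    hx).trans ?_)
  have h3 : 0 < rh Finset.univ x0 r0 x := hr0.trans_le (le_rh _ _ x)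
  have h4 := hD.nJ x
  rw [show -(2 * γ + 2) = -(2 * γ) - 2 by ring]
  gcongr
  exact le_add_of_nonneg_right (by positivity)

/-- growth of `J` from growth of `G` -/
theorem MIData.groJ (hD : MIData v γ s P θ b C0 κ1 c C rs f0 G J) (hn : 7 ≤ n)
    (hE : Expo γ s P θ b) (hC : 0 < C) (hrs : 1 ≤ rs) (hf : 1 ≤ f0) (hpos : ∀ x, 0 < psi v x)
    (x0 : EE n) {e m : ℝ} (hW : Gro (fun x => psi v x ^ b) x0 1 7) (he : e ≤ 7)
    (h : Gro G x0 (max rs f0) e) (hm1 : e - 2 ≤ m) (hm2 : 5 - P ≤ m) : Gro J x0 (max rs f0) m := by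
  obtain ⟨A, hA, hW⟩ := hW
  obtain ⟨A1, hA1, h⟩ := h
  have hγ := hE.g0
  have hO := cOm_pos (e := e) (by linarith)
  have hO2 := cOut_pos (e := 7) (α := P + 2 + 2 * γ) (by linarith [hE.c2])
  have hf0 : 0 < f0 := one_pos.trans_le hf
  refine ⟨2 ^ (2 * γ) * (C * (cOm e * A1 + f0 ^ P * (cOut 7 (P + 2 + 2 * γ) * A))), by positivity,
    fun R hR => ?_⟩
  have hR1 : rs ≤ R := (le_max_left _ _).trans hR
  have hR3 : 1 ≤ R := hrs.trans hR1
  have hR0 : 0 < R := one_pos.trans_le hR3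
  have a1 := lint_const_le (μ := volume) (S := univ) MeasurableSet.univ
    (f := fun x => ENNReal.ofReal
      (R ^ (-2 : ℝ) * (G x * rh Finset.univ x0 R x ^ (-(2 * γ)) * Om x0 R x)))
    (g := fun x => ENNReal.ofReal (G x) * ENNReal.ofReal (Om x0 R x))
    (m := R ^ (-2 : ℝ) * R ^ (-(2 * γ))) (M := cOm e * A1 * R ^ e) (by positivity) (fun x _ => by
      have h4 := hD.nG x
      have h5 := Om_pos x0 hR0 x
      rw [← ENNReal.ofReal_mul h4, ← ENNReal.ofReal_mul (by positivity)]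
      refine ENNReal.ofReal_le_ofReal ?_
      have h6 : rh Finset.univ x0 R x ^ (-(2 * γ)) ≤ R ^ (-(2 * γ)) :=
        Real.rpow_le_rpow_of_nonpos hR0 (le_rh _ _ x) (by linarith)
      calc _ ≤ R ^ (-2 : ℝ) * (G x * R ^ (-(2 * γ)) * Om x0 R x) := by gcongr
        _ = _ := by ring)
    (by
      rw [Measure.restrict_univ]
      exact lay_Om (μ := volume) (F := fun x => ENNReal.ofReal (G x)) x0 hR0 hA1 (by linarith)
        fun s hs => h s (hR.trans hs))
  rw [Measure.restrict_univ] at a1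
  have a2 := lo_all (r0 := R) (R := R) x0 (fun x => (Real.rpow_pos_of_pos (hpos x) b).le) hγ hE.P0
    (e := 7) (by linarith [hE.c2]) hA hf0 hR0 hR3 hW
  have t := hD.real hn hC x0 hR1 le_rfl ((le_max_right _ _).trans hR) (by positivity)
    (by positivity) a1 a2
  refine (lint_const_le measurableSet_ball (m := (R + R) ^ (2 * γ)) (by positivity)
    (fun x hx => ?_) t).trans (ENNReal.ofReal_le_ofReal ?_)
  · rw [← ENNReal.ofReal_mul (by positivity)]
    refine ENNReal.ofReal_le_ofReal ((le_mul_rh (α := 2 * γ) (hD.nJ x) hR0 (by positivity)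
      hx).trans ?_)
    have h3 : 0 < rh Finset.univ x0 R x := hR0.trans_le (le_rh _ _ x)
    have h4 := hD.nG x
    gcongr
    exact le_add_of_nonneg_left (by positivity)
  · have e1 : R ^ (2 * γ) * (R ^ (-2 : ℝ) * R ^ (-(2 * γ)) * R ^ e) ≤ R ^ m := by
      rw [← Real.rpow_add hR0, ← Real.rpow_add hR0, ← Real.rpow_add hR0]
      exact Real.rpow_le_rpow_of_exponent_le hR3 (by linarith)
    have e2 : R ^ (2 * γ) * R ^ (7 - (P + 2 + 2 * γ)) ≤ R ^ m := by
      rw [← Real.rpow_add hR0]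
      exact Real.rpow_le_rpow_of_exponent_le hR3 (by linarith)
    rw [← two_mul, Real.mul_rpow zero_le_two hR0.le]
    calc _ = 2 ^ (2 * γ) * (C * (cOm e * A1 * (R ^ (2 * γ) * (R ^ (-2 : ℝ) * R ^ (-(2 * γ)) * R ^ e)) +
          f0 ^ P * (cOut 7 (P + 2 + 2 * γ) * A) * (R ^ (2 * γ) * R ^ (7 - (P + 2 + 2 * γ))))) := by
          ring
      _ ≤ 2 ^ (2 * γ) * (C * (cOm e * A1 * R ^ m +
          f0 ^ P * (cOut 7 (P + 2 + 2 * γ) * A) * R ^ m)) := by gcongr
      _ = _ := by ring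

/-- growth of `G` from growth of `J` -/
theorem MIData.groG (hD : MIData v γ s P θ b C0 κ1 c C rs f0 G J) (hE : Expo γ s P θ b)
    (hpos : ∀ x, 0 < psi v x) (x0 : EE n) {a m : ℝ} (ha : 1 ≤ a)
    (hW : Gro (fun x => psi v x ^ b) x0 1 7) (h : Gro J x0 a m) :
    Gro G x0 a (θ * m + 7 * (1 - θ)) := by
  obtain ⟨A, hA, hW⟩ := hW
  obtain ⟨A1, hA1, h⟩ := h
  obtain ⟨C1, hC1⟩ := hD.crude
  have h0 := hE.t0
  have h1 : 0 < 1 - θ := sub_pos.2 hE.t1
  set C2 := max C1 0 with hC2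
  have hC2' : 0 ≤ C2 := le_max_right _ _
  refine ⟨C2 * (A1 + A), by positivity, fun R hR => ?_⟩
  have hR0 : 0 < R := one_pos.trans_le (ha.trans hR)
  set l1 := R ^ ((1 - θ) * (7 - m)) with hl1
  set l2 := R ^ (-(θ * (7 - m))) with hl2
  have hl1' : 0 < l1 := by positivity
  have hl2' : 0 < l2 := by positivity
  have key : ∀ x, ENNReal.ofReal (G x) ≤ ENNReal.ofReal (C2 * l1) * ENNReal.ofReal (J x) +
      ENNReal.ofReal (C2 * l2) * ENNReal.ofReal (psi v x ^ b) := fun x => by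
    have hJ := hD.nJ x
    have hw : 0 < psi v x ^ b := Real.rpow_pos_of_pos (hpos x) b
    rw [← ENNReal.ofReal_mul (by positivity), ← ENNReal.ofReal_mul (by positivity),
      ← ENNReal.ofReal_add (by positivity) (by positivity)]
    refine ENNReal.ofReal_le_ofReal ((hC1 x).2.trans ?_)
    have y := Real.geom_mean_le_arith_mean2_weighted (w₁ := θ) (w₂ := 1 - θ) (p₁ := l1 * J x)
      (p₂ := l2 * psi v x ^ b) h0.le h1.le (by positivity) (by positivity) (by ring)
    have e1 : l1 ^ θ * l2 ^ (1 - θ) = 1 := by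
      rw [hl1, hl2, ← Real.rpow_mul hR0.le, ← Real.rpow_mul hR0.le, ← Real.rpow_add hR0,
        show (1 - θ) * (7 - m) * θ + -(θ * (7 - m)) * (1 - θ) = 0 by ring, Real.rpow_zero]
    rw [Real.mul_rpow hl1'.le hJ, Real.mul_rpow hl2'.le hw.le] at y
    have y2 : J x ^ θ * (psi v x ^ b) ^ (1 - θ) ≤ l1 * J x + l2 * psi v x ^ b := by
      have p1 : 0 ≤ l1 * J x := by positivity
      have p2 : 0 ≤ l2 * psi v x ^ b := by positivity
      calc _ = l1 ^ θ * l2 ^ (1 - θ) * (J x ^ θ * (psi v x ^ b) ^ (1 - θ)) := by rw [e1, one_mul]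
        _ = l1 ^ θ * J x ^ θ * (l2 ^ (1 - θ) * (psi v x ^ b) ^ (1 - θ)) := by ring
        _ ≤ _ := y
        _ ≤ _ := by nlinarith
    calc C1 * J x ^ θ * (psi v x ^ b) ^ (1 - θ) = C1 * (J x ^ θ * (psi v x ^ b) ^ (1 - θ)) := by ring
      _ ≤ C2 * (J x ^ θ * (psi v x ^ b) ^ (1 - θ)) := by gcongr; exact le_max_left _ _
      _ ≤ C2 * (l1 * J x + l2 * psi v x ^ b) := by gcongr
      _ = _ := by ring
  calc _ ≤ _ := lintegral_mono key
    _ = ENNReal.ofReal (C2 * l1) * (∫⁻ x in ball x0 R, ENNReal.ofReal (J x)) +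
        ENNReal.ofReal (C2 * l2) * ∫⁻ x in ball x0 R, ENNReal.ofReal (psi v x ^ b) := by
        rw [lintegral_add_left (hD.mJ.ennreal_ofReal.const_mul _),
          lintegral_const_mul' _ _ ENNReal.ofReal_ne_top,
          lintegral_const_mul' _ _ ENNReal.ofReal_ne_top]
    _ ≤ ENNReal.ofReal (C2 * l1) * ENNReal.ofReal (A1 * R ^ m) +
        ENNReal.ofReal (C2 * l2) * ENNReal.ofReal (A * R ^ (7 : ℝ)) := by
        gcongr
        · exact h R hR
        · exact hW R (ha.trans hR)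
    _ = _ := by
        rw [← ENNReal.ofReal_mul (by positivity), ← ENNReal.ofReal_mul (by positivity),
          ← ENNReal.ofReal_add (by positivity) (by positivity)]
        congr 1
        have e1 : l1 * R ^ m = R ^ (θ * m + 7 * (1 - θ)) := by
          rw [hl1, ← Real.rpow_add hR0]; congr 1; ring
        have e2 : l2 * R ^ (7 : ℝ) = R ^ (θ * m + 7 * (1 - θ)) := by
          rw [hl2, ← Real.rpow_add hR0]; congr 1; ring
        calc _ = C2 * A1 * (l1 * R ^ m) + C2 * A * (l2 * R ^ (7 : ℝ)) := by ring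
          _ = _ := by rw [e1, e2]; ring

/-- Step 1: `G` grows slower than `R^(2γ+2)` -/
theorem MIData.gro (hD : MIData v γ s P θ b C0 κ1 c C rs f0 G J) (hn : 7 ≤ n)
    (hE : Expo γ s P θ b) (hC : 0 < C) (hrs : 1 ≤ rs) (hf : 1 ≤ f0) (hpos : ∀ x, 0 < psi v x)
    (x0 : EE n) (hW : Gro (fun x => psi v x ^ b) x0 1 7) :
    ∃ e, e < 2 * γ + 2 ∧ Gro G x0 (max rs f0) e := by
  have h0 := hE.t0
  have h1 : 0 < 1 - θ := sub_pos.2 hE.t1
  have ha : 1 ≤ max rs f0 := hrs.trans (le_max_left _ _)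
  set es := max (7 - θ * (P + 2)) ((7 * (1 - θ) - 2 * θ) / (1 - θ)) with hes
  have e1 : es < 2 * γ + 2 := max_lt hE.c4 ((div_lt_iff₀ h1).2 hE.c3)
  have e2 : 7 - θ * (P + 2) ≤ es := le_max_left _ _
  have e3 : 7 * (1 - θ) - 2 * θ ≤ es * (1 - θ) := (div_le_iff₀ h1).1 (le_max_right _ _)
  have e4 : 0 < 7 - es := by linarith [hE.g2]
  have step : ∀ j : ℕ, Gro G x0 (max rs f0) (es + θ ^ j * (7 - es)) := by
    intro j
    induction j with
    | zero =>
      obtain ⟨A, hA, hW⟩ := hW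
      obtain ⟨C1, hC1⟩ := hD.crude
      rw [show es + θ ^ 0 * (7 - es) = 7 by ring]
      refine ⟨max C1 0 * A, by positivity, fun R hR => ?_⟩
      rw [mul_assoc]
      refine lint_const_le measurableSet_ball (le_max_right _ _) (fun x _ => ?_)
        (hW R (ha.trans hR))
      have hw : 0 < psi v x ^ b := Real.rpow_pos_of_pos (hpos x) b
      rw [← ENNReal.ofReal_mul (le_max_right _ _)]
      exact ENNReal.ofReal_le_ofReal ((hC1 x).1.trans (by gcongr; exact le_max_left _ _))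
    | succ j ih =>
      have p1 : θ ^ j ≤ 1 := pow_le_one₀ h0.le hE.t1.le
      have p0 : 0 < θ ^ j * (7 - es) := by positivity
      have hJ := hD.groJ hn hE hC hrs hf hpos x0 hW (by nlinarith) ih
        (le_max_left _ (5 - P)) (le_max_right _ _)
      refine (hD.groG hE hpos x0 ha hW hJ).mono ha ?_
      rw [pow_succ]
      rcases max_choice (es + θ ^ j * (7 - es) - 2) (5 - P) with h | h <;> rw [h] <;> nlinarith
  obtain ⟨j, hj⟩ := exists_pow_lt_of_lt_one (div_pos (sub_pos.2 e1) e4) hE.t1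
  refine ⟨_, ?_, step j⟩
  have := (lt_div_iff₀ e4).1 hj
  linarith

theorem area : AreaStmt := by
  intro n v γ s P θ b C0 κ1 c C rs A e hn hE hC hrs hA he6 he7 hψ hpos _
  have hO := cOut_pos (e := e) (α := P + 2 + 2 * γ) (by linarith [hE.c2])
  refine ⟨2 ^ (2 * γ + 2) * (C * (cOut e (P + 2 + 2 * γ) * A)), by positivity,
    fun f0 G J hf hD x r hr hfr => ?_⟩
  have hr1 : 1 ≤ r := hrs.trans hr
  have hr0 : 0 < r := one_pos.trans_le hr1
  have hf0 : 0 < f0 := one_pos.trans_le hf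
  have hW : Gro (fun x => psi v x ^ b) x 1 7 := Gro.mono ⟨A, hA, hψ x⟩ le_rfl he7
  obtain ⟨e', he', hG⟩ := hD.gro hn hE hC hrs hf hpos x hW
  refine (hD.inf hn hE.g0 hE.g2 hC hrs x hr hr0 (hrs.trans (le_max_left _ _)) he' hG
    (by positivity) fun R hR => lo_all x (fun x => (Real.rpow_pos_of_pos (hpos x) b).le) hE.g0 hE.P0
      (by linarith [hE.c2]) hA hf0 hR hr1 (hψ x)).trans (le_of_eq ?_)
  congr 1
  have e1 : r ^ (2 * γ + 2) * r ^ (e - (P + 2 + 2 * γ)) = r ^ (e - P) := by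
    rw [← Real.rpow_add hr0]; congr 1; ring
  rw [← two_mul, Real.mul_rpow zero_le_two hr0.le, ← e1]; ring

end

end Crest.Agent.N067
end

-- ▼ part N067/K/Good

/-!
# Row 67, block K: the flat shallow points have the volume of one sheet (leaf K-Good, helper3)

At a flat point some coordinate of `∇ d` is at least `0.18` in size, so `d` leaves `[-1,1]` at the
points `y + 17 j e`, `1 ≤ j ≤ 1/(340 κ)`, for one of the `14` directions `e = ± eᵢ`.  The translates
of the set of such `y` along `e` are pairwise disjoint.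
-/

set_option autoImplicit false

open MeasureTheory InnerProductSpace Set Metric
open scoped RealInnerProductSpace Gradient ENNReal

namespace Crest.Agent.N067

open Crest.Agent.R077

namespace Good'

variable {n : ℕ}

/-- shallow points whose translates along `e` are not shallow -/
def iso (d : EE n → ℝ) (e : EE n) (N : ℕ) : Set (EE n) :=
  {y | |d y| ≤ 1} ∩ ⋂ j : ℕ, {y | 1 ≤ j → j ≤ N → 1 < |d (y + (17 * j : ℝ) • e)|}

theorem meas_iso {d : EE n → ℝ} (hd : Continuous d) (e : EE n) (N : ℕ) :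
    MeasurableSet (iso d e N) := by
  refine (measurableSet_le (by fun_prop) measurable_const).inter
    (MeasurableSet.iInter fun j => ?_)
  by_cases h : 1 ≤ j ∧ j ≤ N
  · simp only [h.1, h.2, forall_const]
    exact measurableSet_lt measurable_const (Continuous.measurable (by fun_prop))
  · convert MeasurableSet.univ
    exact eq_univ_of_forall fun y h1 h2 => absurd ⟨h1, h2⟩ h

theorem pack {d : EE n → ℝ} (hd : Continuous d) {e : EE n} (he : ‖e‖ = 1) (N : ℕ) (x : EE n)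
    (R : ℝ) : ((N + 1 : ℕ) : ℝ≥0∞) * volume (iso d e N ∩ ball x R) ≤
      volume (ball x (R + 17 * N)) := by
  have hm := (meas_iso hd e N).inter (measurableSet_ball (x := x) (ε := R))
  set T : ℕ → Set (EE n) := fun j =>
    (fun z => z + -((17 * j : ℝ) • e)) ⁻¹' (iso d e N ∩ ball x R) with hT
  have key : ∀ i j, i < j → j ≤ N → Disjoint (T i) (T j) := fun i j hij hj => by
    refine disjoint_left.2 fun z h1 h2 => ?_
    have h3 := mem_iInter.1 h2.1.2 (j - i) (by omega) (by omega)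
    have h4 : |d (z + -((17 * i : ℝ) • e))| ≤ 1 := h1.1.1
    have h5 : z + -((17 * j : ℝ) • e) + (17 * ((j - i : ℕ) : ℝ)) • e =
        z + -((17 * i : ℝ) • e) := by
      rw [Nat.cast_sub hij.le]; module
    rw [h5] at h3
    linarith
  have h1 := measure_biUnion_finset (μ := volume) (s := Finset.range (N + 1)) (f := T)
    (fun i hi j hj hij => by
      have hi' : i ≤ N := Nat.lt_succ_iff.1 (Finset.mem_range.1 hi)
      have hj' : j ≤ N := Nat.lt_succ_iff.1 (Finset.mem_range.1 hj)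
      rcases lt_or_gt_of_ne hij with h | h
      exacts [key i j h hj', (key j i h hi').symm])
    fun j _ => hm.preimage (by fun_prop)
  simp only [hT, measure_preimage_add_right, Finset.sum_const, Finset.card_range,
    nsmul_eq_mul] at h1
  rw [← h1]
  refine measure_mono (iUnion₂_subset fun j hj z hz => ?_)
  have hj' : (j : ℝ) ≤ N := by exact_mod_cast Nat.lt_succ_iff.1 (Finset.mem_range.1 hj)
  have h2 : dist (z + -((17 * j : ℝ) • e)) x < R := hz.2
  have h3 : dist z (z + -((17 * j : ℝ) • e)) = 17 * j := by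
    rw [dist_self_add_right, norm_neg, norm_smul, he, mul_one, Real.norm_of_nonneg (by positivity)]
  have h4 := dist_triangle z (z + -((17 * j : ℝ) • e)) x
  rw [mem_ball]; linarith

/-- the fourteen directions -/
noncomputable def dir (k : Fin 7 × Bool) : EE 7 := if k.2 then ev k.1 else -ev k.1

theorem norm_dir (k : Fin 7 × Bool) : ‖dir k‖ = 1 := by
  unfold dir; split_ifs <;> simp

theorem exists_dir {g : EE 7} (hg : 1 / 2 ≤ ‖g‖) : ∃ k, 18 / 100 ≤ ⟪g, dir k⟫ := by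
  by_contra h
  push Not at h
  have h1 : ∀ i, g i ^ 2 ≤ (18 / 100) ^ 2 := fun i => by
    have a := h (i, true)
    have b := h (i, false)
    simp [dir, EuclideanSpace.inner_single_right] at a b
    nlinarith
  have h2 : ‖g‖ ^ 2 ≤ ∑ _i : Fin 7, (18 / 100 : ℝ) ^ 2 := by
    rw [EuclideanSpace.real_norm_sq_eq]
    exact Finset.sum_le_sum fun i _ => h1 i
  norm_num at h2
  nlinarith

theorem mem_iso {v : EE n → ℝ} {κ : ℝ} (hκ : 0 < κ) {y e : EE n} (he : ‖e‖ = 1) (h1 : y ∈ Sh v)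
    (h2 : Flat v κ y) (h3 : 18 / 100 ≤ ⟪∇ (dd v) y, e⟫) {N : ℕ} (hN : 340 * κ * N ≤ 1) :
    y ∈ iso (dd v) e N := by
  refine ⟨h1, mem_iInter.2 fun j hj1 hj2 => ?_⟩
  have k1 : (1 : ℝ) ≤ j := by exact_mod_cast hj1
  have k2 : (j : ℝ) ≤ N := by exact_mod_cast hj2
  have h4 := (abs_le.1 (h2 (y + (17 * j : ℝ) • e))).1
  rw [add_sub_cancel_left, norm_smul, he, mul_one, Real.norm_of_nonneg (by positivity),
    real_inner_smul_right] at h4
  have h5 := (abs_le.1 (show |dd v y| ≤ 1 from h1)).1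
  have h6 : 340 * κ * j ≤ 1 := le_trans (by gcongr) hN
  refine lt_of_lt_of_le ?_ (le_abs_self _)
  nlinarith

end Good'
open Good'

theorem good (h : FlatNStmt) : GoodStmt := by
  intro v hv hs
  obtain ⟨κ0, hκ0, hF⟩ := h 7 v hv hs
  set ω := (volume (ball (0 : EE 7) 1)).toReal with hω
  have hω' : volume (ball (0 : EE 7) 1) = ENNReal.ofReal ω :=
    (ENNReal.ofReal_toReal measure_ball_lt_top.ne).symm
  have hω0 : 0 ≤ ω := ENNReal.toReal_nonneg
  refine ⟨14 * (340 * (2 ^ 7 * ω)), κ0, by positivity, hκ0, fun κ x R hκ hκκ hR => ?_⟩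
  have hR0 : 0 < R := lt_of_lt_of_le (by positivity) hR
  set N := ⌊1 / (340 * κ)⌋₊ with hN
  have hN1 : 340 * κ * N ≤ 1 := by
    have := Nat.floor_le (show 0 ≤ 1 / (340 * κ) by positivity)
    rwa [le_div_iff₀' (by positivity)] at this
  have hN2 : 1 ≤ 340 * κ * (N + 1 : ℕ) := by
    have := (Nat.lt_floor_add_one (1 / (340 * κ))).le
    rw [div_le_iff₀' (by positivity)] at this
    exact_mod_cast this
  have hN3 : R + 17 * N ≤ 2 * R := by
    rw [div_le_iff₀ hκ] at hR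
    have : κ * (17 * N) ≤ κ * R := by nlinarith
    linarith [le_of_mul_le_mul_left this hκ]
  have h1 : Sh v ∩ {y | Flat v κ y} ∩ ball x R ⊆ ⋃ k, iso (dd v) (dir k) N ∩ ball x R := by
    rintro y ⟨⟨a, b⟩, c⟩
    obtain ⟨k, hk⟩ := exists_dir (hF y fun z => (b z).trans (by gcongr))
    exact mem_iUnion.2 ⟨k, mem_iso hκ (norm_dir k) a b hk hN1, c⟩
  have h2 : ∀ k, volume (iso (dd v) (dir k) N ∩ ball x R) ≤
      ENNReal.ofReal (340 * κ * ((2 * R) ^ 7 * ω)) := fun k => by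
    have h3 := (pack hv.dd_sm.continuous (norm_dir k) N x R).trans
      (measure_mono (ball_subset_ball hN3))
    rw [Measure.addHaar_ball_of_pos _ _ (by positivity), hω', finrank_euclideanSpace_fin,
      ← ENNReal.ofReal_mul (by positivity)] at h3
    rw [ENNReal.ofReal_mul (by positivity)]
    refine le_trans ?_ (mul_le_mul_right h3 _)
    rw [← mul_assoc, ← ENNReal.ofReal_natCast, ← ENNReal.ofReal_mul (by positivity)]
    exact le_mul_of_one_le_left' (ENNReal.one_le_ofReal.2 hN2)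
  refine (measure_mono h1).trans ((measure_iUnion_fintype_le _ _).trans
    ((Finset.sum_le_sum fun k _ => h2 k).trans (le_of_eq ?_)))
  rw [← ENNReal.ofReal_sum_of_nonneg fun _ _ => by positivity]
  congr 1
  rw [show (7 : ℝ) = (7 : ℕ) by norm_num, Real.rpow_natCast]
  simp; ring

end Crest.Agent.N067
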