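import Crest.Agent.N067.A.All
import Crest.Agent.N067.X7.Weak
import Crest.Agent.N067.K.Good_Mg
import Crest.Agent.N067.E.Defs
import Crest.Agent.N067.K.PsiMass
import Crest.Agent.N067.K.FlatN
import Crest.Agent.N067.A.HK

-- ▼ part N067/X7/I
section

/-! # Row 67: the exports `E.IStmt` and `LowStmt` (helper1) -/

set_option autoImplicit false

open MeasureTheory Laplacian InnerProductSpace Topology Filter Set Metric
open scoped RealInnerProductSpace ContDiff Gradient ENNReal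

namespace Crest.Agent.N067

open Crest.Agent.R077

theorem X7.bas : X7.Bas := ⟨reg, deq, modica, ballS⟩

theorem X7.densS : X7.DensStmt := X7.dens X7.bas X7.stress

theorem X7.kS : X7.KStmt := X7.kk X7.bas X7.stress (X7.mon X7.bas X7.stress)

/-- (i): the `σ`-weighted curvature is small at all large scales -/
theorem iS : E.IStmt := by
  intro u Θ h hm hE a R0 ha
  obtain ⟨⟨hs, -, -⟩, h2⟩ := X7.sig_core X7.bas (X7.weak X7.bas) X7.kS h hm hE
  obtain ⟨r1, hr⟩ := h2 (Real.sqrt a) (Real.sqrt_pos.2 ha)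
  refine ⟨max R0 r1, le_max_left _ _, ?_⟩
  set R := max R0 r1
  have h3 := hr R (le_max_right _ _)
  rw [Real.sq_sqrt ha.le] at h3
  have hd := X7.bas.dd_smooth h
  have hc : Continuous (X7.curv u (X7.sig u)) :=
    (((X7.cont_hsq hd).add h.continuous_qq).mul (hs.continuous.pow 2)).add
      (X7.cont_gsq (contDiff_infty.1 hs 1))
  have h4 : X7.mu u (ball 0 R) (fun x => X7.sig u x ^ 2 * hsq (dd u) x) ≤
      X7.mu u (ball 0 R) (X7.curv u (X7.sig u)) :=
    X7.mu_mono_fun h ((hs.continuous.pow 2).mul (X7.cont_hsq hd)) hc measurableSet_ball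
      Subset.rfl fun x _ => by
        have := h.qq_nonneg x
        have := gsq_nonneg (X7.sig u) x
        show X7.sig u x ^ 2 * hsq (dd u) x ≤ X7.curv u (X7.sig u) x
        unfold X7.curv
        nlinarith [mul_nonneg (h.qq_nonneg x) (sq_nonneg (X7.sig u x))]
  have h5 : R ^ 2 * X7.mu u (ball 0 R) (fun x => X7.sig u x ^ 2 * hsq (dd u) x) ≤
      R ^ 2 * (a * R ^ 5) := mul_le_mul_of_nonneg_left (h4.trans h3) (sq_nonneg _)
  calc _ = R ^ 2 * X7.mu u (ball 0 R) (fun x => X7.sig u x ^ 2 * hsq (dd u) x) := rfl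
    _ ≤ R ^ 2 * (a * R ^ 5) := h5
    _ = a * R ^ 7 := by ring

open PsiM in
/-- lower density of the shallow set at zeros -/
theorem low : LowStmt := by
  intro v Θ h hΘ hM
  obtain ⟨c, hc, hD⟩ := X7.densS
  obtain ⟨C, hC, hψ⟩ := psi_le 8
  obtain ⟨A, hA, hP⟩ := psiMass 8 v Θ 7 1 h hΘ (by norm_num) one_pos hM
  obtain ⟨j, hj0, hj⟩ : ∃ j : ℝ, 0 < j ∧ C * Real.exp (-j) * A ≤ c / 2 := by
    have h1 : Tendsto (fun j : ℝ => C * Real.exp (-j) * A) atTop (𝓝 (C * 0 * A)) :=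
      (Real.tendsto_exp_neg_atTop_nhds_zero.const_mul C).mul_const A
    rw [mul_zero, zero_mul] at h1
    obtain ⟨j, h2, h3⟩ := ((eventually_gt_atTop 0).and (h1.eventually_le_const (half_pos hc))).exists
    exact ⟨j, h2, h3⟩
  set w1 := volume (ball (0 : EE 8) 1) with hw1
  set w2 := volume (ball (0 : EE 8) (j + 1)) with hw2
  have hw1p : 0 < w1 := measure_ball_pos _ _ one_pos
  have hw2p : 0 < w2 := measure_ball_pos _ _ (by linarith)
  have hw1t : w1 ≠ ⊤ := measure_ball_lt_top.ne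
  have hw2t : w2 ≠ ⊤ := measure_ball_lt_top.ne
  have hr1 : 0 < w1.toReal := ENNReal.toReal_pos hw1p.ne' hw1t
  have hr2 : 0 < w2.toReal := ENNReal.toReal_pos hw2p.ne' hw2t
  refine ⟨c / 2 / 2 ^ 7 * (w1.toReal / w2.toReal), 2 * (j + 1), by positivity, by linarith,
    fun y ρ hy hρ => ?_⟩
  set r := ρ - (j + 1) with hr
  have hr1' : 1 ≤ r := by linarith
  have hrρ : ρ / 2 ≤ r := by linarith
  set N : Set (EE 8) := ball y r ∩ ⋃ z ∈ {z | v z = 0}, ball z j with hN
  have hNm : MeasurableSet N :=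
    measurableSet_ball.inter (isOpen_biUnion fun _ _ => isOpen_ball).measurableSet
  set S : Set (EE 8) := Sh v ∩ ball y ρ with hS
  -- the mass of the ball is carried by `N`
  have h1 : ENNReal.ofReal (c * r ^ 7) ≤ ∫⁻ x in ball y r, ENNReal.ofReal (psi v x ^ 2) := by
    have hcp : Continuous fun x => psi v x ^ 2 := (X7.cont_psi h).pow 2
    rw [← ofReal_integral_eq_lintegral_ofReal (X7.intOn hcp Subset.rfl)
      (Eventually.of_forall fun x => sq_nonneg _)]
    refine ENNReal.ofReal_le_ofReal ((hD v y h hy r hr1').trans (le_of_eq ?_))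
    simp [X7.mu]
  have h2 : ∫⁻ x in ball y r, ENNReal.ofReal (psi v x ^ 2) ≤
      ∫⁻ x in ball y r, (N.indicator 1 x +
        ENNReal.ofReal (C * Real.exp (-j)) * ENNReal.ofReal (psi v x ^ (1 : ℝ))) := by
    refine setLIntegral_mono' measurableSet_ball fun x hx => ?_
    have hp := h.psi_pos x
    by_cases hxN : x ∈ N
    · rw [indicator_of_mem hxN]
      refine le_add_right ?_
      have := X7.psi_le_one v x
      exact ENNReal.ofReal_le_one.2 (by nlinarith)
    · refine le_add_left ?_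
      rw [← ENNReal.ofReal_mul (by positivity), Real.rpow_one]
      refine ENNReal.ofReal_le_ofReal ?_
      have : psi v x ≤ C * Real.exp (-j) := hψ v h x j fun z hz hz0 =>
        hxN ⟨hx, mem_iUnion₂.2 ⟨z, hz0, mem_ball_comm.1 hz⟩⟩
      nlinarith
  have h3 : ∫⁻ x in ball y r, (N.indicator 1 x +
        ENNReal.ofReal (C * Real.exp (-j)) * ENNReal.ofReal (psi v x ^ (1 : ℝ))) ≤
      volume N + ENNReal.ofReal (c / 2 * r ^ 7) := by
    rw [lintegral_add_left (measurable_one.indicator hNm),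
      lintegral_const_mul' _ _ ENNReal.ofReal_ne_top]
    refine add_le_add ?_ ?_
    · exact (setLIntegral_le_lintegral _ _).trans (by rw [lintegral_indicator_one hNm])
    · refine (mul_le_mul_right (hP y r hr1') _).trans ?_
      rw [← ENNReal.ofReal_mul (by positivity)]
      refine ENNReal.ofReal_le_ofReal ?_
      have : r ^ (7 : ℝ) = r ^ 7 := by exact_mod_cast Real.rpow_natCast r 7
      rw [this, ← mul_assoc]
      exact mul_le_mul_of_nonneg_right hj (by positivity)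
  have h4 : ENNReal.ofReal (c / 2 * r ^ 7) ≤ volume N := by
    have h5 := h1.trans (h2.trans h3)
    have h6 : c * r ^ 7 = c / 2 * r ^ 7 + c / 2 * r ^ 7 := by ring
    rw [h6, ENNReal.ofReal_add (by positivity) (by positivity)] at h5
    exact (ENNReal.add_le_add_iff_right ENNReal.ofReal_ne_top).1 h5
  -- `N` is controlled by the shallow set
  have h7 : w1 * volume N ≤ w2 * volume S := by
    rw [← int_FF S (j + 1), ← setLIntegral_const]
    refine (setLIntegral_mono' hNm fun x hx => ?_).trans (setLIntegral_le_lintegral _ _)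
    obtain ⟨hx1, hx2⟩ := hx
    obtain ⟨z, hz0, hz⟩ := mem_iUnion₂.1 hx2
    have hzx : dist z x < j := mem_ball'.1 hz
    have hxy : dist x y < r := hx1
    refine le_FF (y := z) (subset_inter (ball_sub h hz0) (ball_subset_ball' ?_))
      (ball_subset_ball' (by linarith))
    have := dist_triangle z x y
    linarith
  have h8 : w1 * ENNReal.ofReal (c / 2 * r ^ 7) ≤ w2 * volume S :=
    (mul_le_mul_right h4 _).trans h7
  have hSt : volume S ≠ ⊤ := ((measure_mono inter_subset_right).trans_lt measure_ball_lt_top).ne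
  have h9 := ENNReal.toReal_mono (ENNReal.mul_ne_top hw2t hSt) h8
  rw [ENNReal.toReal_mul, ENNReal.toReal_mul, ENNReal.toReal_ofReal (by positivity)] at h9
  rw [← ENNReal.ofReal_toReal hSt]
  refine ENNReal.ofReal_le_ofReal ?_
  have h10 : ρ ^ (7 : ℝ) = ρ ^ 7 := by exact_mod_cast Real.rpow_natCast ρ 7
  have h11 : (ρ / 2) ^ 7 ≤ r ^ 7 := pow_le_pow_left₀ (by linarith) hrρ 7
  rw [h10]
  have h12 : c / 2 / 2 ^ 7 * (w1.toReal / w2.toReal) * ρ ^ 7 =
      w1.toReal * (c / 2 * (ρ / 2) ^ 7) / w2.toReal := by field_simp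
  rw [h12, div_le_iff₀ hr2]
  calc _ ≤ w1.toReal * (c / 2 * r ^ 7) := by gcongr
    _ ≤ _ := by linarith

end Crest.Agent.N067
end

-- ▼ part N067/K/Tube
section

/-!
# Row 67, block K (helper53): `MIStmt + AreaStmt ⇒ TubePtStmt ⇒ E.TubeStmt`
-/

set_option autoImplicit false

open MeasureTheory Topology Filter Set Metric InnerProductSpace
open scoped ENNReal RealInnerProductSpace Gradient

namespace Crest.Agent.N067

open Crest.Agent.R077

noncomputable section

variable {n : ℕ}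

theorem Sol.psi_ge_of_Sh {v : EE n → ℝ} (h : Sol v) {x : EE n} (hx : x ∈ Sh v) :
    1 / Real.cosh 1 ^ 2 ≤ psi v x := by
  rw [h.psi_eq_cosh]
  have h1 : Real.cosh (dd v x / Real.sqrt 2) ≤ Real.cosh 1 := by
    rw [Real.cosh_le_cosh, abs_one, abs_div, abs_of_pos sqrt2_pos, div_le_one sqrt2_pos]
    exact hx.trans (Real.one_le_sqrt.2 one_le_two)
  have h2 := Real.cosh_pos (dd v x / Real.sqrt 2)
  gcongr

theorem Sol.cont_en' {v : EE n → ℝ} (h : Sol v) : Continuous (en v) := by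
  have h1 := h.psi_sm.continuous
  have h2 := h.tt_sm.continuous
  rw [show en v = _ from funext h.en_eq]
  fun_prop

/-- energy bounds give volume bounds for the shallow set -/
theorem mass_of_en {v : EE n → ℝ} (h : Sol v) {Θ : ℝ} {k : ℕ}
    (hE : ∀ (x : EE n) (R : ℝ), 1 ≤ R → ∫ z in ball x R, en v z ≤ Θ * R ^ k) :
    ∃ Θ' : ℝ, 0 ≤ Θ' ∧ Mass v Θ' k := by
  have hc := Real.cosh_pos 1
  set m : ℝ := (1 / Real.cosh 1 ^ 2) ^ 2 / 4 with hm
  have hm0 : 0 < m := by positivity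
  have hen : ∀ x, 0 ≤ en v x := fun x => by unfold en; positivity
  refine ⟨m⁻¹ * max Θ 0, by positivity, fun x R hR => ?_⟩
  have hi : IntegrableOn (en v) (ball x R) :=
    (h.cont_en'.continuousOn.integrableOn_compact (isCompact_closedBall x R)).mono_set
      ball_subset_closedBall
  have h1 : ∫⁻ z in ball x R, ENNReal.ofReal (en v z) ≤ ENNReal.ofReal (max Θ 0 * R ^ k) := by
    rw [← ofReal_integral_eq_lintegral_ofReal hi (Eventually.of_forall hen)]
    refine ENNReal.ofReal_le_ofReal ((hE x R hR).trans ?_)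
    gcongr; exact le_max_left _ _
  refine (meas_le_of_lint (h.meas_Sh.inter measurableSet_ball) inter_subset_right hm0
    (fun z hz => ?_) h1).trans (le_of_eq ?_)
  · have h2 := h.psi_ge_of_Sh hz.1
    have h3 : (1 / Real.cosh 1 ^ 2) ^ 2 ≤ psi v z ^ 2 := by gcongr
    have h4 : 0 ≤ ‖∇ v z‖ ^ 2 / 2 := by positivity
    unfold en; unfold psi at h3; rw [hm]; linarith
  · rw [Real.rpow_natCast, mul_assoc]

theorem norm_ev7 : ‖(ev (Fin.last 7) : EE 8)‖ = 1 := by simp [ev]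

theorem tubePt (hMI : MIStmt) (hA : AreaStmt) : TubePtStmt := by
  intro u Θ hu hs hn hE ε hε
  obtain ⟨Θ', hΘ', hM⟩ := mass_of_en hu hE
  have hM' : Mass u Θ' 7 := by simpa using hM
  obtain ⟨c, r2, hc, hr2, hL⟩ := low u Θ' hu hΘ' hM'
  obtain ⟨κ0, hκ0, hN⟩ := flatN 8 u hu hs
  obtain ⟨K0, r1, hK0, hr1, hB⟩ := tubeBad hMI psiMass hA hu hs hn hΘ' hM' hε (δ := c / 8)
    (by positivity)
  obtain ⟨N, hN1⟩ := exists_nat_ge K0
  have hN0 : (1 : ℝ) ≤ N := hK0.trans hN1
  refine ⟨4 * N, max (max r1 r2) (ε / κ0), by linarith,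
    hr1.trans ((le_max_left _ _).trans (le_max_left _ _)), fun x0 r hr => ?_⟩
  have h1 : r1 ≤ r := ((le_max_left _ _).trans (le_max_left _ _)).trans hr
  have h2 : r2 ≤ r := ((le_max_right _ _).trans (le_max_left _ _)).trans hr
  have hr0 : 0 < r := one_pos.trans_le (hr1.trans h1)
  have h3 : ε / r ≤ κ0 := by
    have := (div_le_iff₀ hκ0).1 ((le_max_right _ _).trans hr)
    rw [div_le_iff₀ hr0]; linarith
  by_contra hcon
  push Not at hcon
  set z : ℕ → EE 8 := fun j => x0 + (4 * r * j) • ev (Fin.last 7) with hz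
  set S : ℕ → Set (EE 8) := fun j => Sh u ∩ ball (z j) (2 * r) with hS
  have hj : ∀ j ∈ Finset.range N, 4 * r * (j : ℝ) ∈ Icc (0 : ℝ) (4 * N * r) := fun j hj => by
    have : (j : ℝ) ≤ N := by exact_mod_cast (Finset.mem_range.1 hj).le
    exact ⟨by positivity, by nlinarith⟩
  have hlow : ∀ j ∈ Finset.range N, ENNReal.ofReal (c * r ^ 7) ≤ volume (S j) := fun j hj' => by
    obtain ⟨y, hy, hy0⟩ := (hcon _ (hj j hj')).1
    have := hL y r hy0 h2
    rw [show (7 : ℝ) = ((7 : ℕ) : ℝ) by norm_num, Real.rpow_natCast] at this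
    refine this.trans (measure_mono (inter_subset_inter_right _ ?_))
    exact ball_subset_ball' (by linarith [mem_ball.1 hy])
  have hsub : ⋃ j ∈ Finset.range N, S j ⊆ Sh u ∩ {x | ¬ Flat u (ε / r) x} ∩
      {x | rh I7 x0 r x < 4 * r} ∩ ball x0 (4 * N * r) := by
    refine iUnion₂_subset fun j hj' x hx => ⟨⟨⟨hx.1, fun hF => ?_⟩, ?_⟩, ?_⟩
    · exact absurd (hN x (hF.mono h3)) (not_le.2 ((hcon _ (hj j hj')).2 x hx.2 hx.1 hF))
    · have h4 : ‖x - z j‖ < 2 * r := by simpa [dist_eq_norm] using hx.2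
      have h5 := sum_sq_le I7 (z j) x
      rw [hz, sum_I7_shift] at h5
      refine (Real.sqrt_lt' (by positivity)).2 ?_
      nlinarith [norm_nonneg (x - z j)]
    · have h4 : dist (z j) x0 = 4 * r * j := by
        rw [hz, dist_eq_norm, add_sub_cancel_left, norm_smul, norm_ev7, mul_one,
          Real.norm_of_nonneg (by positivity)]
      have h5 : (j : ℝ) + 1 ≤ N := by exact_mod_cast Finset.mem_range.1 hj'
      exact ball_subset_ball' (by rw [h4]; nlinarith) hx.2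
  have hdis : Set.PairwiseDisjoint (↑(Finset.range N)) S := fun i _ j _ hij => by
    refine (ball_disjoint_ball ?_).mono inter_subset_right inter_subset_right
    have h4 : dist (z i) (z j) = 4 * r * |(i : ℝ) - j| := by
      rw [hz, dist_eq_norm, add_sub_add_left_eq_sub, ← sub_smul, norm_smul, norm_ev7, mul_one,
        ← mul_sub, Real.norm_eq_abs, abs_mul, abs_of_pos (by positivity)]
    have h5 : (1 : ℝ) ≤ |(i : ℝ) - j| := by
      have : (1 : ℤ) ≤ |(i : ℤ) - j| := Int.one_le_abs (sub_ne_zero.2 (by exact_mod_cast hij))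
      exact_mod_cast this
    rw [h4]; nlinarith
  have h6 := (measure_mono hsub).trans (hB (4 * N) r x0 (by linarith) h1)
  rw [measure_biUnion_finset hdis fun j _ => hu.meas_Sh.inter measurableSet_ball] at h6
  have h7 := (Finset.sum_le_sum hlow).trans h6
  rw [Finset.sum_const, Finset.card_range, nsmul_eq_mul, ← ENNReal.ofReal_natCast,
    ← ENNReal.ofReal_mul (Nat.cast_nonneg _), ENNReal.ofReal_le_ofReal_iff (by positivity)] at h7
  have h8 : 0 < (N : ℝ) * (c * r ^ 7) := by positivity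
  nlinarith

theorem div_neg_iff_of_pos_right {a b : ℝ} (hb : 0 < b) : a / b < 0 ↔ a < 0 := by
  rw [div_lt_iff₀ hb, zero_mul]

theorem Sol.pos_iff {v : EE n → ℝ} (h : Sol v) (x : EE n) : 0 < v x ↔ 0 < dd v x := by
  rw [h.eq_tanh x, Real.tanh_eq_sinh_div_cosh, div_pos_iff_of_pos_right (Real.cosh_pos _),
    Real.sinh_pos_iff, div_pos_iff_of_pos_right sqrt2_pos]

theorem Sol.neg_iff {v : EE n → ℝ} (h : Sol v) (x : EE n) : v x < 0 ↔ dd v x < 0 := by
  rw [h.eq_tanh x, Real.tanh_eq_sinh_div_cosh, div_neg_iff_of_pos_right (Real.cosh_pos _),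
    Real.sinh_neg_iff, div_neg_iff_of_pos_right sqrt2_pos]

/-- no zero in a ball: one sign -/
theorem sign_of_ne {v : EE n → ℝ} (hv : Continuous v) {z : EE n} {r : ℝ}
    (h : ∀ y ∈ ball z r, v y ≠ 0) : (∀ y ∈ ball z r, 0 < v y) ∨ ∀ y ∈ ball z r, v y < 0 := by
  by_contra hc
  push Not at hc
  obtain ⟨⟨a, ha, ha0⟩, b, hb, hb0⟩ := hc
  obtain ⟨y, hy, hy0⟩ := (convex_ball z r).isPreconnected.intermediate_value ha hb
    hv.continuousOn ⟨ha0, hb0⟩
  exact h y hy hy0

theorem tube_of_pt (hT : TubePtStmt) : E.TubeStmt := by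
  intro u Θ hu hs _ hE ε hε
  by_cases hn : Planar u
  · obtain ⟨a, ha, b, hb⟩ := hn
    refine ⟨0, 0, le_rfl, fun r hr => ⟨0, b, a, le_rfl, by simp, ha, fun x _ hx => ?_,
      fun x _ hx => ?_⟩⟩
    · have : 0 ≤ ε * r := by positivity
      rw [hb, zero_smul, add_zero, Real.tanh_eq_sinh_div_cosh,
        div_pos_iff_of_pos_right (Real.cosh_pos _), Real.sinh_pos_iff,
        div_pos_iff_of_pos_right sqrt2_pos]
      linarith
    · have : 0 ≤ ε * r := by positivity
      rw [hb, zero_smul, add_zero, Real.tanh_eq_sinh_div_cosh,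
        div_neg_iff_of_pos_right (Real.cosh_pos _), Real.sinh_neg_iff,
        div_neg_iff_of_pos_right sqrt2_pos]
      linarith
  obtain ⟨K, r1, hK, hr1, hT⟩ := hT u Θ hu hs hn hE (ε / 18) (by positivity)
  refine ⟨K, r1, by linarith, fun r hr => ?_⟩
  have hr0 : 0 < r := one_pos.trans_le (hr1.trans hr)
  have hεr : 0 ≤ ε * r := by positivity
  obtain ⟨h, ⟨h0, h1⟩, h2⟩ := hT 0 r hr
  rw [zero_add] at h2
  set z : EE 8 := h • ev (Fin.last 7) with hz
  have hm : ∀ x : EE 8, ‖x‖ < r → x + z ∈ ball z r := fun x hx => by simpa [dist_eq_norm] using hx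
  have hi : ∀ x : EE 8, ‖x‖ < r → |⟪(ev (Fin.last 7) : EE 8), x⟫| < r := fun x hx =>
    (abs_real_inner_le_norm _ _).trans_lt (by rwa [norm_ev7, one_mul])
  rcases h2 with h2 | ⟨p, hp, -, hF, hN⟩
  · rcases sign_of_ne hu.sm.continuous h2 with h3 | h3
    · exact ⟨h, -r, ev (Fin.last 7), h0, h1, norm_ev7, fun x hx _ => h3 _ (hm x hx),
        fun x hx h4 => absurd (abs_lt.1 (hi x hx)).1 (by linarith)⟩
    · exact ⟨h, r, ev (Fin.last 7), h0, h1, norm_ev7,
        fun x hx h4 => absurd (abs_lt.1 (hi x hx)).2 (by linarith), fun x hx _ => h3 _ (hm x hx)⟩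
  · set g := ∇ (dd u) p with hg
    have hN0 : 0 < ‖g‖ := by linarith
    have hp' : ‖z - p‖ < 2 * r := by rw [norm_sub_rev]; simpa [dist_eq_norm] using hp
    have key : ∀ x : EE 8, ‖x‖ < r → |dd u (x + z) - ‖g‖ * (⟪‖g‖⁻¹ • g, x⟫ -
        -(dd u p + ⟪g, z - p⟫) / ‖g‖)| ≤ ε * r / 2 := fun x hx => by
      have h3 := hF (x + z)
      have h4 : ‖x + z - p‖ ≤ 3 * r := by
        rw [add_sub_assoc]; linarith [norm_add_le x (z - p)]
      have h5 : ε / 18 / r * ‖x + z - p‖ ^ 2 ≤ ε / 18 / r * (3 * r) ^ 2 := by gcongr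
      have h6 : ε / 18 / r * (3 * r) ^ 2 = ε * r / 2 := by field_simp; ring
      have h7 : ‖g‖ * (⟪‖g‖⁻¹ • g, x⟫ - -(dd u p + ⟪g, z - p⟫) / ‖g‖) =
          dd u p + ⟪g, x + z - p⟫ := by
        rw [real_inner_smul_left, add_sub_assoc, inner_add_right]; field_simp; ring
      rw [h7, ← sub_sub]; linarith
    refine ⟨h, -(dd u p + ⟪g, z - p⟫) / ‖g‖, ‖g‖⁻¹ • g, h0, h1,
      by rw [norm_smul, norm_inv, norm_norm, inv_mul_cancel₀ hN0.ne'], fun x hx h3 => ?_,
      fun x hx h3 => ?_⟩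
    · rw [hu.pos_iff]
      have := (abs_le.1 (key x hx)).1
      nlinarith
    · rw [hu.neg_iff]
      have := (abs_le.1 (key x hx)).2
      nlinarith

/-- TUBE from the master inequality -/
theorem tube (hMI : MIStmt) (hA : AreaStmt) : E.TubeStmt := tube_of_pt (tubePt hMI hA)

end

end Crest.Agent.N067
end

-- ▼ part N067/K/Seven

/-!
# Row 67, block K (helper39): `MIStmt → SevenStmt`
-/

set_option autoImplicit false

open MeasureTheory Laplacian InnerProductSpace Topology Filter Set Metric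
open scoped ENNReal RealInnerProductSpace Gradient

namespace Crest.Agent.N067

open Crest.Agent.R077

noncomputable section

variable {n : ℕ}

theorem vol_ball_le (n : ℕ) : ∃ Θ : ℝ, 0 ≤ Θ ∧ ∀ (x : EE n) (R : ℝ), 0 ≤ R →
    volume (ball x R) ≤ ENNReal.ofReal (Θ * R ^ (n : ℝ)) := by
  refine ⟨(volume (ball (0 : EE n) 1)).toReal, ENNReal.toReal_nonneg, fun x R hR => ?_⟩
  refine (measure_mono ball_subset_closedBall).trans (le_of_eq ?_)
  rw [Measure.addHaar_closedBall _ _ hR, ENNReal.ofReal_mul ENNReal.toReal_nonneg,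
    ENNReal.ofReal_toReal measure_ball_lt_top.ne, finrank_euclideanSpace_fin, Real.rpow_natCast,
    mul_comm]

theorem mass_of_large {v : EE n → ℝ} {Θ e R1 : ℝ} (hΘ : 0 ≤ Θ) (he : 0 ≤ e)
    (h : ∀ (x : EE n) (R : ℝ), R1 ≤ R → 1 ≤ R →
      volume (Sh v ∩ ball x R) ≤ ENNReal.ofReal (Θ * R ^ e)) :
    ∃ Θ' : ℝ, 0 ≤ Θ' ∧ Mass v Θ' e := by
  set a := max R1 1 with ha
  have ha1 : 1 ≤ a := le_max_right _ _
  have h1 : 1 ≤ a ^ e := Real.one_le_rpow ha1 he
  refine ⟨Θ * a ^ e, by positivity, fun x R hR => ?_⟩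
  have h2 : 1 ≤ R ^ e := Real.one_le_rpow hR he
  rcases le_total a R with h3 | h3
  · refine (h x R ((le_max_left _ _).trans h3) hR).trans (ENNReal.ofReal_le_ofReal ?_)
    gcongr
    exact le_mul_of_one_le_right hΘ h1
  · refine (measure_mono (inter_subset_inter_right _ (ball_subset_ball h3))).trans
      ((h x a (le_max_left _ _) ha1).trans (ENNReal.ofReal_le_ofReal ?_))
    exact le_mul_of_one_le_right (by positivity) h2

/-- a point that is flat at all small openings forces the planar profile -/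
theorem planar_of_flat {v : EE n → ℝ} (hv : Sol v) (hs : Stable v) {x0 : EE n} {κ1 : ℝ}
    (hκ : 0 < κ1) (h : ∀ κ, 0 < κ → κ ≤ κ1 → Flat v κ x0) : Planar v := by
  have e : dd v = fun z => ⟪∇ (dd v) x0, z⟫ - (⟪∇ (dd v) x0, x0⟫ - dd v x0) := by
    funext z
    have h1 : Tendsto (fun κ : ℝ => κ * ‖z - x0‖ ^ 2) (𝓝[>] 0) (𝓝 (0 * ‖z - x0‖ ^ 2)) :=
      ((continuous_id.mul continuous_const).tendsto 0).mono_left nhdsWithin_le_nhds
    rw [zero_mul] at h1
    have h2 := ge_of_tendsto h1 (by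
      filter_upwards [Ioc_mem_nhdsGT hκ] with κ hk using h κ hk.1 hk.2 z)
    have h3 := abs_nonpos_iff.1 h2
    rw [inner_sub_right] at h3
    linarith
  rcases hv.planar_or with h1 | h1
  · exact h1
  have h2 : v = fun _ => 0 := by
    funext x
    have h3 := hv.lap_dd x
    rw [e, lap_sub_const (f := fun z => ⟪∇ (dd v) x0, z⟫)
      (contDiffAt_const.inner ℝ contDiffAt_id), lap_inner] at h3
    have h4 : (0 : ℝ) < Real.sqrt 2 := by positivity
    have h5 := h1 x
    have h6 : Real.sqrt 2 * tt v x * v x = 0 := by linarith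
    exact (mul_eq_zero.1 h6).resolve_left (by positivity)
  exact (not_stable_zero (h2 ▸ hs)).elim

section main

variable {v : EE 7 → ℝ} {γ s P θ b C0 κ1 c C rs fs : ℝ}

/-- one improvement of the area exponent -/
theorem mass_step (hP : PsiMassStmt) (hA : AreaStmt) (hG : GoodStmt) (hv : Sol v) (hs : Stable v)
    (hE : Expo γ s P θ b) (hC0 : 0 < C0) (hκ1 : 0 < κ1) (hc : 0 < c) (hC : 0 < C) (hrs : 1 ≤ rs)
    (hMI : ∀ f0, fs ≤ f0 → ∃ G J : EE 7 → ℝ, MIData v γ s P θ b C0 κ1 c C rs f0 G J)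
    {Θ β : ℝ} (hΘ : 0 ≤ Θ) (hβ0 : 0 ≤ β) (hβ1 : β ≤ 1) (hM : Mass v Θ (6 + β)) :
    ∃ Θ' : ℝ, 0 ≤ Θ' ∧ Mass v Θ' (6 + β * (1 + P)⁻¹) := by
  have hP0 := hE.P0
  obtain ⟨A, hA0, hψ⟩ := hP 7 v Θ (6 + β) b hv hΘ (by positivity) hE.b0 hM
  have hpos : ∀ x, 0 < psi v x := PsiM.psi_pos' hv
  obtain ⟨A', hA', hAr⟩ := hA 7 v γ s P θ b C0 κ1 c C rs A (6 + β) le_rfl hE hC hrs hA0
    (by linarith) (by linarith) hψ hpos hv.psi_sm.continuous.measurable
  obtain ⟨Ag, κ0, hAg, hκ0, hg⟩ := hG v hv hs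
  set τ : ℝ := 1 - β * (1 + P)⁻¹ with hτ
  have hi : (1 + P) * (1 + P)⁻¹ = 1 := mul_inv_cancel₀ (by positivity)
  have hi0 : 0 < (1 + P)⁻¹ := by positivity
  have hi1 : (1 + P)⁻¹ < 1 := inv_lt_one_of_one_lt₀ (by linarith)
  have hτ0 : 0 < τ := by rw [hτ]; nlinarith
  have hτ1 : τ ≤ 1 := by rw [hτ]; nlinarith
  set C1 := max C0 1 with hC1
  have hC11 : 1 ≤ C1 := le_max_right _ _
  have hC10 : 0 < C1 := one_pos.trans_le hC11
  obtain ⟨R1, hR1⟩ := eventually_atTop.1 (((tendsto_rpow_atTop hτ0).eventually_ge_atTop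
    (max fs (max (C1 / κ1) (C1 / κ0)))).and (eventually_ge_atTop rs))
  refine mass_of_large (Θ := (c * C1 ^ (2 * s))⁻¹ * A' + Ag * C1) (R1 := R1) (by positivity)
    (by positivity) fun x R hR hR' => ?_
  obtain ⟨h1, h2⟩ := hR1 R hR
  have hR0 : 0 < R := one_pos.trans_le hR'
  set f0 := R ^ τ with hf0
  have hf1 : 1 ≤ f0 := Real.one_le_rpow hR' hτ0.le
  have hf0' : 0 < f0 := one_pos.trans_le hf1
  have hfR : f0 ≤ R := by
    calc f0 ≤ R ^ (1 : ℝ) := Real.rpow_le_rpow_of_exponent_le hR' hτ1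
      _ = R := Real.rpow_one R
  obtain ⟨G, J, hD⟩ := hMI f0 ((le_max_left _ _).trans h1)
  have k1 : C1 / f0 ≤ κ1 := by
    have := (div_le_iff₀ hκ1).1 (((le_max_left _ _).trans (le_max_right _ _)).trans h1)
    rw [div_le_iff₀ hf0']; linarith
  have k0 : C1 / f0 ≤ κ0 := by
    have := (div_le_iff₀ hκ0).1 (((le_max_right _ _).trans (le_max_right _ _)).trans h1)
    rw [div_le_iff₀ hf0']; linarith
  have t1 := meas_le_of_lint (B := Sh v ∩ {y | ¬ Flat v (C1 / f0) y} ∩ ball x R)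
    ((hv.meas_Sh.inter (hv.meas_bad _)).inter measurableSet_ball) inter_subset_right
    (m := c * C1 ^ (2 * s)) (by positivity) (fun y hy => by
      have := hD.low (C1 / f0) (by gcongr; exact le_max_left _ _) k1 y hy.1.1 hy.1.2
      rwa [mul_div_cancel₀ _ hf0'.ne'] at this) (hAr f0 G J hf1 hD x R h2 hfR)
  have t2 := hg (C1 / f0) x R (by positivity) k0 (by
    rw [one_div_div]; exact (div_le_self hf0'.le hC11).trans hfR)
  calc _ ≤ volume ((Sh v ∩ {y | ¬ Flat v (C1 / f0) y} ∩ ball x R) ∪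
        (Sh v ∩ {y | Flat v (C1 / f0) y} ∩ ball x R)) := measure_mono fun y hy => by
        by_cases h3 : Flat v (C1 / f0) y
        · exact Or.inr ⟨⟨hy.1, h3⟩, hy.2⟩
        · exact Or.inl ⟨⟨hy.1, h3⟩, hy.2⟩
    _ ≤ _ := (measure_union_le _ _).trans (add_le_add t1 t2)
    _ = _ := by
        rw [← ENNReal.ofReal_add (by positivity) (by positivity)]
        congr 1
        have e1 : f0 ^ P * R ^ (6 + β - P) = R ^ (6 + β * (1 + P)⁻¹) := by
          rw [hf0, ← Real.rpow_mul hR0.le, ← Real.rpow_add hR0]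
          congr 1
          rw [hτ]; linear_combination (-β) * hi
        have e2 : R ^ (7 : ℝ) / f0 = R ^ (6 + β * (1 + P)⁻¹) := by
          rw [hf0, ← Real.rpow_sub hR0]
          congr 1
          rw [hτ]; ring
        calc _ = (c * C1 ^ (2 * s))⁻¹ * A' * (f0 ^ P * R ^ (6 + β - P)) +
              Ag * C1 * (R ^ (7 : ℝ) / f0) := by ring
          _ = _ := by rw [e1, e2]; ring

/-- the second pass: below the critical exponent the zeros are flat at all openings -/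
theorem flat_of_mass (hP : PsiMassStmt) (hA : AreaStmt) (hv : Sol v)
    (hE : Expo γ s P θ b) (hc : 0 < c) (hC : 0 < C) (hrs : 1 ≤ rs)
    (hMI : ∀ f0, fs ≤ f0 → ∃ G J : EE 7 → ℝ, MIData v γ s P θ b C0 κ1 c C rs f0 G J)
    {Θ e : ℝ} (hΘ : 0 ≤ Θ) (he6 : 6 ≤ e) (he7 : e ≤ 7) (he : e < 2 + 2 * γ + 2 * s)
    (hM : Mass v Θ e) {x0 : EE 7} (hx : v x0 = 0) {κ : ℝ} (hκ : 0 < κ) (hκ1 : κ ≤ κ1) :
    Flat v κ x0 := by
  have hγ := hE.g0
  obtain ⟨A, hA0, hψ⟩ := hP 7 v Θ e b hv hΘ (by linarith) hE.b0 hM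
  have hpos : ∀ x, 0 < psi v x := PsiM.psi_pos' hv
  have hW : ∀ x, 0 ≤ psi v x ^ b := fun x => (Real.rpow_pos_of_pos (hpos x) b).le
  obtain ⟨A', hA', hAr⟩ := hA 7 v γ s P θ b C0 κ1 c C rs A e le_rfl hE hC hrs hA0
    he6 he7 hψ hpos hv.psi_sm.continuous.measurable
  have hI := cIn_pos (e := e) (α := 2 * γ) (by linarith [hE.g2])
  have hO := cOut_pos (e := e) (α := P + 2 + 2 * γ) (by linarith [hE.c2])
  set B := {y | ¬ Flat v κ y} ∩ ball x0 1 with hB
  have hBo : IsOpen B := (hv.isClosed_flat κ).isOpen_compl.inter isOpen_ball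
  have key : ∀ ε : ℝ, 0 < ε → volume B ≤ ENNReal.ofReal (1 * (1 * (ε + 0))) := fun ε hε => by
    obtain ⟨f0, hf, hf2⟩ := exists_rpow_le (D := (c * κ ^ (2 * s))⁻¹ * ((rs + 1) ^ (2 * γ + 2) *
      (C * ((cIn e (2 * γ) + cOut e (P + 2 + 2 * γ)) * A)))) (η := e - 2 - 2 * γ - 2 * s)
      (by linarith) hε (max (max fs rs) (C0 / κ))
    have f1 : rs ≤ f0 := ((le_max_right _ _).trans (le_max_left _ _)).trans hf
    have f2 : 1 ≤ f0 := hrs.trans f1
    have f3 : 0 < f0 := one_pos.trans_le f2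
    obtain ⟨G, J, hD⟩ := hMI f0 (((le_max_left _ _).trans (le_max_left _ _)).trans hf)
    have k1 : C0 / f0 ≤ κ := by
      have := (div_le_iff₀ hκ).1 ((le_max_right _ _).trans hf)
      rw [div_le_iff₀ f3]; linarith
    have t1 := hD.inf le_rfl hγ hE.g2 hC hrs x0 (r0 := rs) (r1 := 1) (a := f0) (e := e - P)
      (M := f0 ^ (-2 : ℝ) * (cIn e (2 * γ) * A * f0 ^ (e - 2 * γ)) +
        f0 ^ P * (cOut e (P + 2 + 2 * γ) * A * f0 ^ (e - (P + 2 + 2 * γ)))) le_rfl
      one_pos f2 (by linarith [hE.c2])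
      ⟨A' * f0 ^ P, by positivity, fun r hr => hAr f0 G J f2 hD x0 r (f1.trans hr) hr⟩
      (by positivity) fun R hR => by
        have := lint_split (T := univ) (fun y _ => by
          rcases lt_or_ge (rh Finset.univ x0 rs y) f0 with h3 | h3
          · exact Or.inl ⟨le_rh _ _ y, h3⟩
          · exact Or.inr h3) (by positivity) (by positivity)
          (lo_in (P := P) x0 hW hγ (by linarith [hE.g2]) hA0 f3 hR hrs (hψ x0))
          (lo_out (r0 := rs) x0 hW hγ hE.P0 (by linarith [hE.c2]) hA0 f3 hR f2 (hψ x0))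
        rwa [Measure.restrict_univ] at this
    have t2 := meas_le_of_lint (B := B) hBo.measurableSet inter_subset_right
      (m := c * (f0 * κ) ^ (2 * s)) (by positivity)
      (fun y hy => hD.low κ k1 hκ1 y (PsiM.ball_sub hv hx hy.2) hy.1) t1
    refine t2.trans (ENNReal.ofReal_le_ofReal ?_)
    rw [one_mul, one_mul, add_zero]
    refine le_trans (le_of_eq ?_) hf2
    have e1 : f0 ^ (-2 : ℝ) * f0 ^ (e - 2 * γ) = f0 ^ (e - 2 - 2 * γ) := by
      rw [← Real.rpow_add f3]; congr 1; ring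
    have e2 : f0 ^ P * f0 ^ (e - (P + 2 + 2 * γ)) = f0 ^ (e - 2 - 2 * γ) := by
      rw [← Real.rpow_add f3]; congr 1; ring
    have e3 : f0 ^ (-2 : ℝ) * (cIn e (2 * γ) * A * f0 ^ (e - 2 * γ)) +
        f0 ^ P * (cOut e (P + 2 + 2 * γ) * A * f0 ^ (e - (P + 2 + 2 * γ))) =
        (cIn e (2 * γ) + cOut e (P + 2 + 2 * γ)) * A * f0 ^ (e - 2 - 2 * γ) := by
      calc _ = cIn e (2 * γ) * A * (f0 ^ (-2 : ℝ) * f0 ^ (e - 2 * γ)) +
          cOut e (P + 2 + 2 * γ) * A * (f0 ^ P * f0 ^ (e - (P + 2 + 2 * γ))) := by ring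
        _ = _ := by rw [e1, e2]; ring
    rw [e3, Real.rpow_sub f3 _ (2 * s), Real.mul_rpow f3.le hκ.le]
    have p1 : 0 < f0 ^ (2 * s) := by positivity
    have p2 : 0 < κ ^ (2 * s) := by positivity
    field_simp
  have h0 : volume B = 0 := by simpa using le_ofReal_of_forall key
  by_contra hn
  exact (hBo.measure_pos volume ⟨x0, hn, mem_ball_self one_pos⟩).ne' h0

end main

theorem seven (hMI : MIStmt) (hP : PsiMassStmt) (hA : AreaStmt) (hG : GoodStmt) : SevenStmt := by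
  intro v hv hs
  by_contra hn
  obtain ⟨γ, s, P, θ, b, hE, hMI⟩ := hMI
  obtain ⟨C0, κ1, c, C, rs, fs, hC0, hκ1, hc, hC, hrs, -, hMI⟩ := hMI 7 v (Or.inl rfl) hv hs hn
  have hP0 := hE.P0
  have hi0 : 0 < (1 + P)⁻¹ := by positivity
  have hi1 : (1 + P)⁻¹ < 1 := inv_lt_one_of_one_lt₀ (by linarith)
  have step : ∀ j : ℕ, ∃ Θ : ℝ, 0 ≤ Θ ∧ Mass v Θ (6 + (1 + P)⁻¹ ^ j) := by
    intro j
    induction j with
    | zero =>
      obtain ⟨Θ, hΘ, h⟩ := vol_ball_le 7
      refine ⟨Θ, hΘ, fun x R hR => (measure_mono inter_subset_right).trans ?_⟩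
      have := h x R (zero_le_one.trans hR)
      rwa [show ((7 : ℕ) : ℝ) = 6 + (1 + P)⁻¹ ^ 0 by norm_num] at this
    | succ j ih =>
      obtain ⟨Θ, hΘ, h⟩ := ih
      rw [pow_succ]
      exact mass_step hP hA hG hv hs hE hC0 hκ1 hc hC hrs hMI hΘ (by positivity)
        (pow_le_one₀ hi0.le hi1.le) h
  obtain ⟨j, hj⟩ := exists_pow_lt_of_lt_one (x := 2 * (s + γ - 2)) (by linarith [hE.c1]) hi1
  obtain ⟨Θ, hΘ, hM⟩ := step j
  obtain ⟨x0, hx⟩ := PsiM.zero_ex hv
  have p0 : 0 < (1 + P)⁻¹ ^ j := by positivity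
  have p1 : (1 + P)⁻¹ ^ j ≤ 1 := pow_le_one₀ hi0.le hi1.le
  exact hn (planar_of_flat hv hs hκ1 fun κ h1 h2 => flat_of_mass hP hA hv hE hc hC hrs hMI hΘ
    (by linarith) (by linarith) (by linarith) hM hx h1 h2)

/-- the rigidity theorem in `ℝ⁷` from the master inequality alone -/
theorem seven_of_mi (hMI : MIStmt) : SevenStmt := seven hMI psiMass area (good flatN)

end

end Crest.Agent.N067
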